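import Vale.Agent.P247.H332.K3.Nl

/-!
# P247, package K3: the derivatives of the nonlinear operators
-/

open scoped ContDiff Topology
open Set MeasureTheory Filter Metric Asymptotics

noncomputable section

namespace Vale.Agent.P247.H332

open Vale.Agent.P247.H74

/-- derivative along a line -/
theorem hasDerivAt_line {E F : Type*} [NormedAddCommGroup E] [NormedSpace ℝ E]
    [NormedAddCommGroup F] [NormedSpace ℝ F] {g : E → F} {x v : E} (h : DifferentiableAt ℝ g x) :
    HasDerivAt (fun t : ℝ => g (x + t • v)) (fderiv ℝ g x v) 0 := by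
  have h1 : HasDerivAt (fun t : ℝ => x + t • v) v 0 := by
    have := ((hasDerivAt_id (0 : ℝ)).smul_const v).const_add x
    simpa using this
  have h2 : HasFDerivAt g (fderiv ℝ g x) (x + (0 : ℝ) • v) := by
    rw [zero_smul, add_zero]
    exact h.hasFDerivAt
  exact h2.comp_hasDerivAt 0 h1

theorem hasDerivAt_affine {E : Type*} [NormedAddCommGroup E] [NormedSpace ℝ E] (u v : E) :
    HasDerivAt (fun t : ℝ => u + t • v) v 0 := by
  have := ((hasDerivAt_id (0 : ℝ)).smul_const v).const_add u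
  simpa using this

/-- derivative of an operator field applied to a vector, along a line -/
theorem hasDerivAt_field {E : Type*} [NormedAddCommGroup E] [NormedSpace ℝ E]
    {A : R4 → R4 →L[ℝ] E} (hA : ContDiff ℝ ∞ A) (x y u v : R4) :
    HasDerivAt (fun t : ℝ => A (x + t • y) (u + t • v)) (fderiv ℝ A x y u + A x v) 0 := by
  have h1 : HasDerivAt (fun t : ℝ => A (x + t • y)) (fderiv ℝ A x y) 0 :=
    hasDerivAt_line (hA.differentiable (by simp) x)
  have h2 := h1.clm_apply (hasDerivAt_affine u v)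
  simpa using h2

section

variable (W : WA) {D : Data} {m : ℕ} (N : Nl D m)

include W

theorem ds_phi_line (a v : Fin 4 → WR (m + 1)) (t : ℝ) (p : P2) :
    ds (phi (evv (a + t • v))) p = ds (phi (evv a)) p + t • ds (evv v) p := by
  rw [ds_phi (differentiable_evv W _ p), ds_phi (differentiable_evv W _ p), ds_evv W, ds_evv W,
    ds_evv W, map_add, map_smul, evv_add, evv_smul, add_assoc]

theorem dt_phi_line (a v : Fin 4 → WR (m + 1)) (t : ℝ) (p : P2) :
    dt (phi (evv (a + t • v))) p = dt (phi (evv a)) p + t • dt (evv v) p := by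
  rw [dt_phi (differentiable_evv W _ p), dt_phi (differentiable_evv W _ p), dt_evv W, dt_evv W,
    dt_evv W, map_add, map_smul, evv_add, evv_smul, add_assoc]

theorem ds_evv_line (a v : Fin 4 → WR (m + 1)) (t : ℝ) (p : P2) :
    ds (evv (a + t • v)) p = ds (evv a) p + t • ds (evv v) p := by
  rw [ds_evv W, ds_evv W, ds_evv W, map_add, map_smul, evv_add, evv_smul]

theorem dt_evv_line (a v : Fin 4 → WR (m + 1)) (t : ℝ) (p : P2) :
    dt (evv (a + t • v)) p = dt (evv a) p + t • dt (evv v) p := by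
  rw [dt_evv W, dt_evv W, dt_evv W, map_add, map_smul, evv_add, evv_smul]

omit W in
theorem phi_line (a v : Fin 4 → WR (m + 1)) (t : ℝ) (p : P2) :
    phi (evv (a + t • v)) p = phi (evv a) p + t • evv v p := by
  rw [phi, phi, evv_add, evv_smul, add_assoc]

theorem evv_fderiv_F (a v : Fin 4 → WR (m + 1)) (τ σ : ℂ) (p : P2) :
    evv (fderiv ℝ N.F (a, τ) (v, σ)) p = Lop D (evv a) τ (evv v) σ p := by
  have h1 : HasDerivAt (fun t : ℝ => N.F ((a, τ) + t • (v, σ))) (fderiv ℝ N.F (a, τ) (v, σ)) 0 :=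
    hasDerivAt_line (N.F_smooth.differentiable (by simp) _)
  have h2 : HasDerivAt (fun t : ℝ => evvL m p (N.F ((a, τ) + t • (v, σ))))
      (evvL m p (fderiv ℝ N.F (a, τ) (v, σ))) 0 := (evvL m p).hasFDerivAt.comp_hasDerivAt 0 h1
  have h3 : (fun t : ℝ => evvL m p (N.F ((a, τ) + t • (v, σ)))) = fun t : ℝ =>
      (dt (phi (evv a)) p + t • dt (evv v) p)
        - (τ.re + t • σ.re) • (ds (phi (evv a)) p + t • ds (evv v) p)
        - (τ.im + t • σ.im) • D.J (phi (evv a) p + t • evv v p)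
          (ds (phi (evv a)) p + t • ds (evv v) p) := by
    funext t
    rw [evvL_apply]
    change evv (N.F (a + t • v, τ + t • σ)) p = _
    rw [N.F_ev, Fop, ds_phi_line W, dt_phi_line W, phi_line]
    simp only [Complex.add_re, Complex.add_im, Complex.smul_re, Complex.smul_im]
  rw [h3] at h2
  have h4 := ((hasDerivAt_affine (dt (phi (evv a)) p) (dt (evv v) p)).sub
    ((hasDerivAt_affine τ.re σ.re).smul
      (hasDerivAt_affine (ds (phi (evv a)) p) (ds (evv v) p)))).sub
    ((hasDerivAt_affine τ.im σ.im).smul (hasDerivAt_field D.J_smooth (phi (evv a) p) (evv v p)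
      (ds (phi (evv a)) p) (ds (evv v) p)))
  have h5 := h2.unique h4
  rw [evvL_apply] at h5
  rw [h5, Lop]
  simp only [zero_smul, add_zero, smul_add]
  abel

theorem ev_fderiv_q1 (a v : Fin 4 → WR (m + 1)) (p : P2) :
    ev (fderiv ℝ N.q1 a v) p = (fderiv ℝ (D.η 0).lam (phi (evv a) p) (evv v p))
      (ds (phi (evv a)) p) + (D.η 0).lam (phi (evv a) p) (ds (evv v) p)
      - (D.η 0).κ (e 2) (evv v p)
      + (1 / 2) * ((D.η 0).κ (evv v p) (ds (evv a) p) + (D.η 0).κ (evv a p) (ds (evv v) p)) := by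
  have h1 : HasDerivAt (fun t : ℝ => N.q1 (a + t • v)) (fderiv ℝ N.q1 a v) 0 :=
    hasDerivAt_line (N.q1_smooth.differentiable (by simp) _)
  have h2 : HasDerivAt (fun t : ℝ => evL m p (N.q1 (a + t • v)))
      (evL m p (fderiv ℝ N.q1 a v)) 0 := (evL m p).hasFDerivAt.comp_hasDerivAt 0 h1
  have h3 : (fun t : ℝ => evL m p (N.q1 (a + t • v))) = fun t : ℝ =>
      (D.η 0).lam (phi (evv a) p + t • evv v p) (ds (phi (evv a)) p + t • ds (evv v) p)
        - (D.η 0).κ (e 2) (evv a p + t • evv v p)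
        + (1 / 2) * (D.η 0).κ (evv a p + t • evv v p) (ds (evv a) p + t • ds (evv v) p) := by
    funext t
    rw [evL_apply, N.q1_ev, ds_phi_line W, phi_line, ds_evv_line W, evv_add, evv_smul]
  rw [h3] at h2
  have h4 := ((hasDerivAt_field (D.η 0).lam_smooth (phi (evv a) p) (evv v p)
    (ds (phi (evv a)) p) (ds (evv v) p)).sub (((D.η 0).κ (e 2)).hasFDerivAt.comp_hasDerivAt (0 : ℝ)
      (hasDerivAt_affine (evv a p) (evv v p)))).add
    (((((D.η 0).κ.hasFDerivAt.comp_hasDerivAt (0 : ℝ)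
      (hasDerivAt_affine (evv a p) (evv v p)))).clm_apply
        (hasDerivAt_affine (ds (evv a) p) (ds (evv v) p))).const_mul (1 / 2 : ℝ))
  have h5 := h2.unique h4
  rw [evL_apply] at h5
  rw [h5]
  simp only [Function.comp_apply, zero_smul, add_zero]

theorem ev_fderiv_q2 (a v : Fin 4 → WR (m + 1)) (p : P2) :
    ev (fderiv ℝ N.q2 a v) p = (fderiv ℝ (D.η 0).lam (phi (evv a) p) (evv v p))
      (dt (phi (evv a)) p) + (D.η 0).lam (phi (evv a) p) (dt (evv v) p)
      - (D.η 0).κ (e 3) (evv v p)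
      + (1 / 2) * ((D.η 0).κ (evv v p) (dt (evv a) p) + (D.η 0).κ (evv a p) (dt (evv v) p)) := by
  have h1 : HasDerivAt (fun t : ℝ => N.q2 (a + t • v)) (fderiv ℝ N.q2 a v) 0 :=
    hasDerivAt_line (N.q2_smooth.differentiable (by simp) _)
  have h2 : HasDerivAt (fun t : ℝ => evL m p (N.q2 (a + t • v)))
      (evL m p (fderiv ℝ N.q2 a v)) 0 := (evL m p).hasFDerivAt.comp_hasDerivAt 0 h1
  have h3 : (fun t : ℝ => evL m p (N.q2 (a + t • v))) = fun t : ℝ =>
      (D.η 0).lam (phi (evv a) p + t • evv v p) (dt (phi (evv a)) p + t • dt (evv v) p)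
        - (D.η 0).κ (e 3) (evv a p + t • evv v p)
        + (1 / 2) * (D.η 0).κ (evv a p + t • evv v p) (dt (evv a) p + t • dt (evv v) p) := by
    funext t
    rw [evL_apply, N.q2_ev, dt_phi_line W, phi_line, dt_evv_line W, evv_add, evv_smul]
  rw [h3] at h2
  have h4 := ((hasDerivAt_field (D.η 0).lam_smooth (phi (evv a) p) (evv v p)
    (dt (phi (evv a)) p) (dt (evv v) p)).sub (((D.η 0).κ (e 3)).hasFDerivAt.comp_hasDerivAt (0 : ℝ)
      (hasDerivAt_affine (evv a p) (evv v p)))).add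
    (((((D.η 0).κ.hasFDerivAt.comp_hasDerivAt (0 : ℝ)
      (hasDerivAt_affine (evv a p) (evv v p)))).clm_apply
        (hasDerivAt_affine (dt (evv a) p) (dt (evv v) p))).const_mul (1 / 2 : ℝ))
  have h5 := h2.unique h4
  rw [evL_apply] at h5
  rw [h5]
  simp only [Function.comp_apply, zero_smul, add_zero]

end

end Vale.Agent.P247.H332
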