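import Vale.Agent.P247.H332.K3.Der
import Mathlib.Analysis.Normed.Operator.Compact.FredholmAlternative

/-!
# P247, package K3: the linearised operator is the model operator plus a compact operator
-/

open scoped ContDiff Topology
open Set MeasureTheory Filter Metric Asymptotics

noncomputable section

namespace Vale.Agent.P247.H332

open Vale.Agent.P247.H74

/-- an injective compact perturbation of an isomorphism is bijective -/
theorem fredholm_bijective {E F : Type*} [NormedAddCommGroup E] [NormedSpace ℝ E]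
    [CompleteSpace E] [NormedAddCommGroup F] [NormedSpace ℝ F] (I : E ≃L[ℝ] F) (L : E →L[ℝ] F)
    (hK : IsCompactOperator (L - (I : E →L[ℝ] F))) (hinj : Function.Injective L) :
    Function.Bijective L := by
  set T : E →L[ℝ] E := -((I.symm : F →L[ℝ] E).comp (L - (I : E →L[ℝ] F))) with hT
  have hTc : IsCompactOperator T := (hK.clm_comp (I.symm : F →L[ℝ] E)).neg
  have hTx : ∀ x, x - T x = I.symm (L x) := by
    intro x
    simp [hT]
  rcases hTc.hasEigenvalue_or_mem_resolventSet one_ne_zero with h | h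
  · exfalso
    obtain ⟨x, hx⟩ := h.exists_hasEigenvector
    have h1 : T x = x := by simpa using hx.apply_eq_smul
    have h2 := hTx x
    rw [h1, sub_self] at h2
    have h3 : L x = 0 := by
      have := congrArg I h2
      simpa using this.symm
    exact hx.2 (hinj (by rw [h3, map_zero]))
  · rw [spectrum.mem_resolventSet_iff, ContinuousLinearMap.isUnit_iff_bijective] at h
    have h2 : (⇑(algebraMap ℝ (E →L[ℝ] E) 1 - T) : E → E) = fun x => I.symm (L x) := by
      funext x
      rw [← hTx]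
      simp
    rw [h2] at h
    refine ⟨hinj, fun y => ?_⟩
    obtain ⟨x, hx⟩ := h.2 (I.symm y)
    exact ⟨x, I.symm.injective hx⟩

variable (W : WA)

include W

/-- the model operator on four functions -/
theorem exists_model4 (m : ℕ) (τ : ℂ) (hτ : 0 < τ.im) :
    ∃ Φ : (Fin 4 → WR (m + 1)) ≃L[ℝ] (Fin 4 → WR m), ∀ w p, evv (Φ w) p =
      dt (evv w) p - τ.re • ds (evv w) p - τ.im • Jst (ds (evv w) p)
        + (Real.pi * τ.im) • evv w p := by
  obtain ⟨Φ, hΦ⟩ := W.model m τ hτ
  let pr : ∀ k : ℕ, Fin 4 → Fin 4 → (Fin 4 → WR k) →L[ℝ] WR k × WR k := fun k i j =>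
    (ContinuousLinearMap.proj i).prod (ContinuousLinearMap.proj j)
  let c1 : (WR (m + 1) × WR (m + 1)) →L[ℝ] (WR m × WR m) := Φ
  let c2 : (WR m × WR m) →L[ℝ] (WR (m + 1) × WR (m + 1)) := Φ.symm
  let f1 : (WR m × WR m) →L[ℝ] WR m := ContinuousLinearMap.fst ℝ _ _
  let s1 : (WR m × WR m) →L[ℝ] WR m := ContinuousLinearMap.snd ℝ _ _
  let f2 : (WR (m + 1) × WR (m + 1)) →L[ℝ] WR (m + 1) := ContinuousLinearMap.fst ℝ _ _
  let s2 : (WR (m + 1) × WR (m + 1)) →L[ℝ] WR (m + 1) := ContinuousLinearMap.snd ℝ _ _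
  let N : (Fin 4 → WR (m + 1)) →L[ℝ] (Fin 4 → WR m) := ContinuousLinearMap.pi
    ![f1.comp (c1.comp (pr (m + 1) 0 1)), s1.comp (c1.comp (pr (m + 1) 0 1)),
      f1.comp (c1.comp (pr (m + 1) 2 3)), s1.comp (c1.comp (pr (m + 1) 2 3))]
  let N' : (Fin 4 → WR m) →L[ℝ] (Fin 4 → WR (m + 1)) := ContinuousLinearMap.pi
    ![f2.comp (c2.comp (pr m 0 1)), s2.comp (c2.comp (pr m 0 1)),
      f2.comp (c2.comp (pr m 2 3)), s2.comp (c2.comp (pr m 2 3))]
  have hN : ∀ w, N w = ![(Φ (w 0, w 1)).1, (Φ (w 0, w 1)).2, (Φ (w 2, w 3)).1,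
      (Φ (w 2, w 3)).2] := by
    intro w
    funext i
    fin_cases i <;> rfl
  have hN' : ∀ w, N' w = ![(Φ.symm (w 0, w 1)).1, (Φ.symm (w 0, w 1)).2,
      (Φ.symm (w 2, w 3)).1, (Φ.symm (w 2, w 3)).2] := by
    intro w
    funext i
    fin_cases i <;> rfl
  have i1 : Function.LeftInverse N' N := by
    intro w
    rw [hN', hN]
    funext i
    fin_cases i <;> simp
  have i2 : Function.RightInverse N' N := by
    intro w
    rw [hN, hN']
    funext i
    fin_cases i <;> simp
  refine ⟨ContinuousLinearEquiv.equivOfInverse N N' i1 i2, fun w p => ?_⟩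
  have key : ∀ a : WR (m + 1) × WR (m + 1), ∀ p,
      ev (Φ a).1 p = dt (ev a.1) p - τ.re * ds (ev a.1) p + τ.im * ds (ev a.2) p
        + Real.pi * τ.im * ev a.1 p ∧
      ev (Φ a).2 p = dt (ev a.2) p - τ.re * ds (ev a.2) p - τ.im * ds (ev a.1) p
        + Real.pi * τ.im * ev a.2 p := by
    intro a p
    have h := hΦ a p
    have d1 := ((differentiable_ev W a.1) p).hasFDerivAt
    have d2 := ((differentiable_ev W a.2) p).hasFDerivAt
    have h1 : HasFDerivAt (evc a) (Complex.ofRealCLM.comp (fderiv ℝ (ev a.1) p) +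
        Complex.I • Complex.ofRealCLM.comp (fderiv ℝ (ev a.2) p)) p := by
      have e1 := Complex.ofRealCLM.hasFDerivAt.comp p d1
      have e2 := Complex.ofRealCLM.hasFDerivAt.comp p d2
      exact e1.add (e2.const_smul Complex.I)
    have hs : ds (evc a) p = ((ds (ev a.1) p : ℝ) : ℂ) + Complex.I * ((ds (ev a.2) p : ℝ) : ℂ) := by
      rw [ds, h1.fderiv]
      simp [ds]
    have ht : dt (evc a) p = ((dt (ev a.1) p : ℝ) : ℂ) + Complex.I * ((dt (ev a.2) p : ℝ) : ℂ) := by
      rw [dt, h1.fderiv]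
      simp [dt]
    rw [hs, ht] at h
    have hre := congrArg Complex.re h
    have him := congrArg Complex.im h
    simp only [evc, Complex.add_re, Complex.add_im, Complex.sub_re, Complex.sub_im,
      Complex.mul_re, Complex.mul_im, Complex.ofReal_re, Complex.ofReal_im, Complex.I_re,
      Complex.I_im] at hre him
    constructor
    · linarith
    · linarith
  have e0 : ∀ i : Fin 4, ds (evv w) p i = ds (ev (w i)) p := by
    intro i
    rw [ds_evv W]
    exact W.S_ev m (w i) p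
  have e1 : ∀ i : Fin 4, dt (evv w) p i = dt (ev (w i)) p := by
    intro i
    rw [dt_evv W]
    exact W.T_ev m (w i) p
  have k0 := key (w 0, w 1) p
  have k1 := key (w 2, w 3) p
  dsimp only at k0 k1
  have j0 : Jst (ds (evv w) p) 0 = -ds (ev (w 1)) p := by rw [← e0]; rfl
  have j1 : Jst (ds (evv w) p) 1 = ds (ev (w 0)) p := by rw [← e0]; rfl
  have j2 : Jst (ds (evv w) p) 2 = -ds (ev (w 3)) p := by rw [← e0]; rfl
  have j3 : Jst (ds (evv w) p) 3 = ds (ev (w 2)) p := by rw [← e0]; rfl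
  have hNw : ∀ i, evv (ContinuousLinearEquiv.equivOfInverse N N' i1 i2 w) p i = ev (N w i) p :=
    fun i => rfl
  have r : ∀ i, (dt (evv w) p - τ.re • ds (evv w) p - τ.im • Jst (ds (evv w) p)
      + (Real.pi * τ.im) • evv w p) i = dt (ev (w i)) p - τ.re * ds (ev (w i)) p
      - τ.im * Jst (ds (evv w) p) i + Real.pi * τ.im * ev (w i) p := by
    intro i
    simp only [Pi.add_apply, Pi.sub_apply, Pi.smul_apply, smul_eq_mul, e0, e1]
    rfl
  funext i
  rw [r, hNw, hN]
  fin_cases i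
  · change ev (Φ (w 0, w 1)).1 p = dt (ev (w 0)) p - τ.re * ds (ev (w 0)) p
      - τ.im * Jst (ds (evv w) p) 0 + Real.pi * τ.im * ev (w 0) p
    rw [k0.1, j0]
    ring
  · change ev (Φ (w 0, w 1)).2 p = dt (ev (w 1)) p - τ.re * ds (ev (w 1)) p
      - τ.im * Jst (ds (evv w) p) 1 + Real.pi * τ.im * ev (w 1) p
    rw [k0.2, j1]
  · change ev (Φ (w 2, w 3)).1 p = dt (ev (w 2)) p - τ.re * ds (ev (w 2)) p
      - τ.im * Jst (ds (evv w) p) 2 + Real.pi * τ.im * ev (w 2) p
    rw [k1.1, j2]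
    ring
  · change ev (Φ (w 2, w 3)).2 p = dt (ev (w 3)) p - τ.re * ds (ev (w 3)) p
      - τ.im * Jst (ds (evv w) p) 3 + Real.pi * τ.im * ev (w 3) p
    rw [k1.2, j3]

end Vale.Agent.P247.H332
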