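import Vale.Agent.P247.H332.K3.Sta
import Mathlib.MeasureTheory.Integral.DivergenceTheorem

/-!
# P247, package K3: means of periodic functions, independence of the two forms
-/

open scoped ContDiff Topology
open Set MeasureTheory Filter Metric Asymptotics

set_option linter.unusedSectionVars false

noncomputable section

namespace Vale.Agent.P247.H332

open Vale.Agent.P247.H74

section mean

variable {E : Type*} [NormedAddCommGroup E] [NormedSpace ℝ E]

theorem integrableOn_sq {g : P2 → E} (hg : Continuous g) :
    IntegrableOn g (Icc (0 : P2) 1) :=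
  hg.continuousOn.integrableOn_compact isCompact_Icc

theorem mean_add {g h : P2 → E} (hg : Continuous g) (hh : Continuous h) :
    mean (fun p => g p + h p) = mean g + mean h :=
  integral_add (integrableOn_sq hg) (integrableOn_sq hh)

theorem mean_sub {g h : P2 → E} (hg : Continuous g) (hh : Continuous h) :
    mean (fun p => g p - h p) = mean g - mean h :=
  integral_sub (integrableOn_sq hg) (integrableOn_sq hh)

theorem mean_smul (c : ℝ) (g : P2 → E) : mean (fun p => c • g p) = c • mean g :=
  integral_smul c g

theorem mean_mul (c : ℝ) (g : P2 → ℝ) : mean (fun p => c * g p) = c * mean g :=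
  integral_const_mul c g

theorem mean_zero : mean (fun _ : P2 => (0 : E)) = 0 := by
  simp [mean]

theorem volume_sq : volume (Icc (0 : P2) 1) = 1 := by
  have h : Icc (0 : P2) 1 = Icc (0 : ℝ) 1 ×ˢ Icc (0 : ℝ) 1 := (Icc_prod_Icc _ _ _ _).symm
  rw [h, Measure.volume_eq_prod, Measure.prod_prod]
  simp

theorem mean_const [CompleteSpace E] (c : E) : mean (fun _ : P2 => c) = c := by
  rw [mean, setIntegral_const, Measure.real, volume_sq]
  simp

variable [CompleteSpace E]

theorem mean_ds {g : P2 → E} (hg : ContDiff ℝ 1 g) (hp : Per g) : mean (ds g) = 0 := by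
  have hd : Differentiable ℝ g := hg.differentiable (by simp)
  have hc : Continuous (fderiv ℝ g) := hg.continuous_fderiv (by simp)
  have h := integral_divergence_prod_Icc_of_hasFDerivAt_of_le g (fun _ => (0 : E)) (fderiv ℝ g)
    (fun _ => 0) (0 : P2) 1 (by constructor <;> simp) hg.continuous.continuousOn
    continuousOn_const (fun x _ => (hd x).hasFDerivAt)
    (fun x _ => hasFDerivAt_const 0 x)
    (by
      refine (Continuous.continuousOn ?_).integrableOn_compact isCompact_Icc
      simp only [zero_apply, add_zero]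
      exact hc.clm_apply continuous_const)
  simp only [zero_apply, add_zero] at h
  have h1 : mean (ds g) = ∫ x in Icc (0 : P2) 1, fderiv ℝ g x (1, 0) := rfl
  rw [h1, h]
  have h2 : (∫ y in (0 : P2).2..(1 : P2).2, g ((1 : P2).1, y)) =
      ∫ y in (0 : P2).2..(1 : P2).2, g ((0 : P2).1, y) := by
    congr 1
    funext y
    have := hp 1 0 ((0 : P2).1, y)
    simpa using this
  rw [h2]
  simp

theorem mean_dt {g : P2 → E} (hg : ContDiff ℝ 1 g) (hp : Per g) : mean (dt g) = 0 := by
  have hd : Differentiable ℝ g := hg.differentiable (by simp)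
  have hc : Continuous (fderiv ℝ g) := hg.continuous_fderiv (by simp)
  have h := integral_divergence_prod_Icc_of_hasFDerivAt_of_le (fun _ => (0 : E)) g
    (fun _ => 0) (fderiv ℝ g) (0 : P2) 1 (by constructor <;> simp) continuousOn_const
    hg.continuous.continuousOn (fun x _ => hasFDerivAt_const 0 x)
    (fun x _ => (hd x).hasFDerivAt)
    (by
      refine (Continuous.continuousOn ?_).integrableOn_compact isCompact_Icc
      simp only [zero_apply, zero_add]
      exact hc.clm_apply continuous_const)
  simp only [zero_apply, zero_add] at h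
  have h1 : mean (dt g) = ∫ x in Icc (0 : P2) 1, fderiv ℝ g x (0, 1) := rfl
  rw [h1, h]
  have h2 : (∫ x in (0 : P2).1..(1 : P2).1, g (x, (1 : P2).2)) =
      ∫ x in (0 : P2).1..(1 : P2).1, g (x, (0 : P2).2) := by
    congr 1
    funext x
    have := hp 0 1 (x, (0 : P2).2)
    simpa using this
  rw [h2]
  simp

/-- the mean of a positive function is positive -/
theorem mean_pos {g : P2 → ℝ} (hg : Continuous g) (hpos : ∀ p, 0 < g p) : 0 < mean g := by
  obtain ⟨q, -, hq⟩ := isCompact_Icc.exists_isMinOn (s := Icc (0 : P2) 1)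
    ⟨0, by constructor <;> simp⟩ hg.continuousOn
  have h1 : mean (fun _ : P2 => g q) ≤ mean g :=
    setIntegral_mono_on (integrableOn_sq continuous_const) (integrableOn_sq hg)
      measurableSet_Icc fun p hp => hq hp
  rw [mean_const] at h1
  exact (hpos q).trans_le h1

end mean

/-! ### linear algebra -/

/-- the two forms are independent at a nonzero vector -/
theorem indep (D : Data) (x u : R4) (hu : u ≠ 0) (μ : Fin 2 → ℝ)
    (h : ∀ w, μ 0 * (D.η 0).val x u w + μ 1 * (D.η 1).val x u w = 0) : μ 0 = 0 ∧ μ 1 = 0 := by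
  -- a vector outside the complex line of `u`
  obtain ⟨w, hw⟩ : ∃ w : R4, w ∉ Submodule.span ℝ {u, D.J x u} := by
    by_contra hcon
    push Not at hcon
    have h1 : Submodule.span ℝ {u, D.J x u} = ⊤ := by
      rw [eq_top_iff]
      intro w _
      exact hcon w
    have h2 : Module.finrank ℝ (Submodule.span ℝ ({u, D.J x u} : Set R4)) ≤ 2 := by
      classical
      have h3 := finrank_span_finset_le_card (R := ℝ) ({u, D.J x u} : Finset R4)
      have h4 : ((({u, D.J x u} : Finset R4) : Set R4)) = {u, D.J x u} := by simp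
      rw [h4] at h3
      exact h3.trans Finset.card_le_two
    rw [h1, finrank_top] at h2
    simp at h2
  -- the values on `w` and `J w`
  set h0 := (D.η 0).val x u w with hh0
  set h1 := (D.η 1).val x u w with hh1
  have e1 := h w
  rw [← hh0, ← hh1] at e1
  have e2 := h (D.J x w)
  rw [D.η_J, D.η_J, Fin.sum_univ_two, Fin.sum_univ_two, ← hh0, ← hh1] at e2
  have hne : h0 ≠ 0 ∨ h1 ≠ 0 := by
    by_contra hcon
    push Not at hcon
    obtain ⟨a, b, hab⟩ := D.nd x u w hu (by
      intro j
      fin_cases j
      · exact hcon.1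
      · exact hcon.2)
    apply hw
    rw [hab, Submodule.mem_span_pair]
    exact ⟨a, b, rfl⟩
  set c := D.c x with hc
  have s00 := D.c_sq x 0 0
  have s01 := D.c_sq x 0 1
  rw [Fin.sum_univ_two, ← hc] at s00 s01
  simp only [if_true, zero_ne_one, if_false] at s00 s01
  have c01 : c 0 1 ≠ 0 := by
    intro h0
    rw [h0] at s00
    nlinarith [sq_nonneg (c 0 0)]
  have c10 : c 1 0 ≠ 0 := by
    intro h0
    rw [h0] at s00
    nlinarith [sq_nonneg (c 0 0)]
  have hc11 : c 1 1 = -c 0 0 := by
    have : c 0 1 * (c 0 0 + c 1 1) = 0 := by linarith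
    rcases mul_eq_zero.1 this with h | h
    · exact absurd h c01
    · linarith
  rw [hc11] at e2
  -- the determinant of `(h, c h)` does not vanish
  set dd := c 1 0 * h0 ^ 2 - 2 * c 0 0 * h0 * h1 - c 0 1 * h1 ^ 2 with hdd
  have hdne : dd ≠ 0 := by
    intro h0'
    have : (c 1 0 * h0 - c 0 0 * h1) ^ 2 + h1 ^ 2 = 0 := by
      have h3 : c 1 0 * dd = (c 1 0 * h0 - c 0 0 * h1) ^ 2 + h1 ^ 2 := by
        rw [hdd]
        linear_combination (-(h1 ^ 2)) * s00
      rw [← h3, h0', mul_zero]
    have h4 : h1 = 0 := by nlinarith [sq_nonneg (c 1 0 * h0 - c 0 0 * h1), sq_nonneg h1]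
    have h5 : c 1 0 * h0 = 0 := by
      rw [h4] at this
      nlinarith [sq_nonneg (c 1 0 * h0)]
    rcases mul_eq_zero.1 h5 with h | h
    · exact c10 h
    · rcases hne with h' | h'
      · exact h' h
      · exact h' h4
  constructor
  · have : μ 0 * dd = 0 := by
      rw [hdd]
      linear_combination (c 1 0 * h0 - c 0 0 * h1) * e1 - h1 * e2
    exact (mul_eq_zero.1 this).resolve_right hdne
  · have : μ 1 * dd = 0 := by
      rw [hdd]
      linear_combination h0 * e2 - (c 0 0 * h0 + c 0 1 * h1) * e1
    exact (mul_eq_zero.1 this).resolve_right hdne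

end Vale.Agent.P247.H332
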