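import Vale.Agent.P247.H332.K3.Psi
import Vale.Agent.P247.H332.K3.Mean

/-!
# P247, package K3: the full nonlinear map, its derivative is an isomorphism
-/

open scoped ContDiff Topology
open Set MeasureTheory Filter Metric Asymptotics

set_option linter.unusedSectionVars false

noncomputable section

namespace Vale.Agent.P247.H332

open Vale.Agent.P247.H74

/-- the obstruction vector fields, Euclidean duals of `η i (φ_s, ·)` -/
def obs (D : Data) (f : P2 → R4) (i : Fin 2) (p : P2) : R4 :=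
  fun k => (D.η i).val (phi f p) (ds (phi f) p) (e k)

theorem obs_dot (D : Data) (f : P2 → R4) (i : Fin 2) (p : P2) (w : R4) :
    ∑ k, obs D f i p k * w k = (D.η i).val (phi f p) (ds (phi f) p) w := by
  rw [← bil_apply, clm_eq_sum (bil (D.η i) (phi f p) (ds (phi f) p)) w]
  refine Finset.sum_congr rfl fun k _ => ?_
  rw [obs, ← bil_apply, smul_eq_mul, mul_comm]

theorem contDiff_obs (D : Data) {f : P2 → R4} (hf : ContDiff ℝ ∞ f) (i : Fin 2) :
    ContDiff ℝ ∞ (obs D f i) := by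
  refine contDiff_pi.2 fun k => ?_
  have h : (fun p => obs D f i p k) = fun p => bil (D.η i) (phi f p) (ds (phi f) p) (e k) := by
    funext p
    rw [bil_apply]
    rfl
  rw [h]
  exact (((bil_smooth (D.η i)).comp (contDiff_phi hf)).clm_apply
    (contDiff_ds (contDiff_phi hf))).clm_apply contDiff_const

theorem per_obs (D : Data) {f : P2 → R4} (hf : Per f) (hd : Differentiable ℝ f) (i : Fin 2) :
    Per (obs D f i) := by
  intro k l p
  funext j
  have h1 := per_comp_phi hf (bil_per (D.η i)) k l p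
  have h2 := per_ds_phi hf hd k l p
  simp only at h1
  rw [obs, obs, ← bil_apply, ← bil_apply, h1, h2]

/-- no nontrivial combination of the obstruction fields vanishes anywhere -/
theorem obs_indep (D : Data) {f : P2 → R4} {p : P2} (h : ds (phi f) p ≠ 0) {x y : ℝ}
    (h0 : x • obs D f 0 p + y • obs D f 1 p = 0) : x = 0 ∧ y = 0 := by
  refine indep D (phi f p) (ds (phi f) p) h ![x, y] fun w => ?_
  show x * _ + y * _ = 0
  rw [← obs_dot, ← obs_dot, Finset.mul_sum, Finset.mul_sum, ← Finset.sum_add_distrib]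
  refine Finset.sum_eq_zero fun k _ => ?_
  have := congrFun h0 k
  simp only [Pi.add_apply, Pi.smul_apply, smul_eq_mul, Pi.zero_apply] at this
  linear_combination w k * this

variable (W : WA) {D : Data} {m : ℕ} (N : Nl D m)

/-- the unknowns: periodic part, modulus, multipliers -/
abbrev XX (m : ℕ) : Type := (Fin 4 → WR (m + 1)) × ℂ × P2

/-- the equations: Cauchy-Riemann, centring, flux -/
abbrev YY (m : ℕ) : Type := (Fin 4 → WR m) × P2 × P2

/-- the full map -/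
def GG (E0 E1 : Fin 4 → WR m) (x : XX m) : YY m :=
  (N.F (x.1, x.2.1) - x.2.2.1 • E0 - x.2.2.2 • E1,
    (W.M (m + 1) (x.1 2), W.M (m + 1) (x.1 3)), (W.M m (N.q1 x.1), W.M m (N.q2 x.1)))

theorem contDiff_GG (E0 E1 : Fin 4 → WR m) : ContDiff ℝ ∞ (GG W N E0 E1) := by
  have a1 : ContDiff ℝ ∞ fun x : XX m => x.1 := contDiff_fst
  have a2 : ContDiff ℝ ∞ fun x : XX m => x.2.1 := contDiff_fst.comp contDiff_snd
  have a3 : ContDiff ℝ ∞ fun x : XX m => x.2.2.1 :=
    contDiff_fst.comp (contDiff_snd.comp contDiff_snd)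
  have a4 : ContDiff ℝ ∞ fun x : XX m => x.2.2.2 :=
    contDiff_snd.comp (contDiff_snd.comp contDiff_snd)
  have b1 : ∀ i : Fin 4, ContDiff ℝ ∞ fun x : XX m => W.M (m + 1) (x.1 i) := fun i =>
    (W.M (m + 1)).contDiff.comp ((contDiff_apply ℝ (WR (m + 1)) i).comp a1)
  refine ContDiff.prodMk ?_ (ContDiff.prodMk ((b1 2).prodMk (b1 3)) ?_)
  · exact ((N.F_smooth.comp (a1.prodMk a2)).sub (a3.smul contDiff_const)).sub
      (a4.smul contDiff_const)
  · exact ((W.M m).contDiff.comp (N.q1_smooth.comp a1)).prodMk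
      ((W.M m).contDiff.comp (N.q2_smooth.comp a1))

/-- the derivative of the full map along a line -/
theorem fderiv_GG (E0 E1 : Fin 4 → WR m) (x y : XX m) :
    fderiv ℝ (GG W N E0 E1) x y =
      (fderiv ℝ N.F (x.1, x.2.1) (y.1, y.2.1) - y.2.2.1 • E0 - y.2.2.2 • E1,
        (W.M (m + 1) (y.1 2), W.M (m + 1) (y.1 3)),
        (W.M m (fderiv ℝ N.q1 x.1 y.1), W.M m (fderiv ℝ N.q2 x.1 y.1))) := by
  have h1 := hasDerivAt_line (v := y)
    ((contDiff_GG W N E0 E1).differentiable (by simp) x)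
  refine h1.unique ?_
  have g1 : HasDerivAt (fun t : ℝ => N.F ((x.1, x.2.1) + t • (y.1, y.2.1)))
      (fderiv ℝ N.F (x.1, x.2.1) (y.1, y.2.1)) 0 :=
    hasDerivAt_line (N.F_smooth.differentiable (by simp) _)
  have g2 : HasDerivAt (fun t : ℝ => N.q1 (x.1 + t • y.1)) (fderiv ℝ N.q1 x.1 y.1) 0 :=
    hasDerivAt_line (N.q1_smooth.differentiable (by simp) _)
  have g3 : HasDerivAt (fun t : ℝ => N.q2 (x.1 + t • y.1)) (fderiv ℝ N.q2 x.1 y.1) 0 :=
    hasDerivAt_line (N.q2_smooth.differentiable (by simp) _)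
  have g4 := (hasDerivAt_affine x.2.2.1 y.2.2.1).smul_const E0
  have g5 := (hasDerivAt_affine x.2.2.2 y.2.2.2).smul_const E1
  have g6 : ∀ i : Fin 4, HasDerivAt (fun t : ℝ => W.M (m + 1) (x.1 i + t • y.1 i))
      (W.M (m + 1) (y.1 i)) 0 := fun i =>
    (W.M (m + 1)).hasFDerivAt.comp_hasDerivAt 0 (hasDerivAt_affine (x.1 i) (y.1 i))
  have g7 := (W.M m).hasFDerivAt.comp_hasDerivAt 0 g2
  have g8 := (W.M m).hasFDerivAt.comp_hasDerivAt 0 g3
  exact ((g1.sub g4).sub g5).prodMk (((g6 2).prodMk (g6 3)).prodMk (g7.prodMk g8))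

/-- the derivative is an isomorphism plus a compact operator -/
theorem exists_iso_compact (hFR : FRAME_statement) (a₀ : Fin 4 → WR (m + 1))
    (hs : ContDiff ℝ ∞ (evv a₀)) (τ₀ : ℂ) (hτ : 0 < τ₀.im) (E0 E1 : Fin 4 → WR m) :
    ∃ I : XX m ≃L[ℝ] YY m,
      IsCompactOperator (fderiv ℝ (GG W N E0 E1) (a₀, τ₀, (0, 0)) - (I : XX m →L[ℝ] YY m)) := by
  obtain ⟨Ψ, R, hΨ⟩ := exists_Psi W N hFR a₀ hs τ₀ hτ
  set L := fderiv ℝ (GG W N E0 E1) (a₀, τ₀, (0, 0)) with hL
  let I : XX m ≃L[ℝ] YY m := Ψ.prodCongr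
    (Complex.equivRealProdCLM.prodCongr (ContinuousLinearEquiv.refl ℝ P2))
  refine ⟨I, ?_⟩
  -- the three parts
  let K1 : XX m →L[ℝ] YY m := (ContinuousLinearMap.inl ℝ (Fin 4 → WR m) (P2 × P2)).comp
    ((incv W m).comp (R.comp (ContinuousLinearMap.fst ℝ (Fin 4 → WR (m + 1)) (ℂ × P2))))
  let J0 : (ℂ × P2) →L[ℝ] XX m := ContinuousLinearMap.inr ℝ (Fin 4 → WR (m + 1)) (ℂ × P2)
  let P1 : YY m →L[ℝ] (Fin 4 → WR m) := ContinuousLinearMap.fst ℝ _ _
  let P2' : YY m →L[ℝ] (P2 × P2) := ContinuousLinearMap.snd ℝ _ _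
  let κ : (ℂ × P2) →L[ℝ] (Fin 4 → WR m) := P1.comp (L.comp J0)
  let ρ : XX m →L[ℝ] (P2 × P2) := P2'.comp (L - (I : XX m →L[ℝ] YY m))
  let K2 : XX m →L[ℝ] YY m := (ContinuousLinearMap.inl ℝ (Fin 4 → WR m) (P2 × P2)).comp
    (κ.comp (ContinuousLinearMap.snd ℝ (Fin 4 → WR (m + 1)) (ℂ × P2)))
  let K3 : XX m →L[ℝ] YY m := (ContinuousLinearMap.inr ℝ (Fin 4 → WR m) (P2 × P2)).comp ρ
  have hsum : L - (I : XX m →L[ℝ] YY m) = K1 + K2 + K3 := by
    refine ContinuousLinearMap.ext fun y => ?_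
    refine Prod.ext ?_ ?_
    · show (L y).1 - Ψ y.1 = incv W m (R y.1) + (L (0, y.2)).1 + 0
      rw [hL, fderiv_GG, fderiv_GG]
      simp only [add_zero]
      have h1 : (y.1, y.2.1) = (y.1, (0 : ℂ)) + (0, y.2.1) := by simp
      rw [h1, map_add, hΨ y.1]
      abel
    · show (L y).2 - (I y).2 = 0 + 0 + ((L y).2 - (I y).2)
      simp
  have c1 : IsCompactOperator K1 := by
    have h1 : IsCompactOperator ((incv W m).comp
        (R.comp (ContinuousLinearMap.fst ℝ (Fin 4 → WR (m + 1)) (ℂ × P2)))) :=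
      (isCompactOperator_incv W m).comp_clm
        (R.comp (ContinuousLinearMap.fst ℝ (Fin 4 → WR (m + 1)) (ℂ × P2)))
    exact h1.clm_comp (ContinuousLinearMap.inl ℝ (Fin 4 → WR m) (P2 × P2))
  have c2 : IsCompactOperator K2 := by
    have h1 : IsCompactOperator κ := isCompactOperator_of_locallyCompactSpace_rng κ
    have h2 : IsCompactOperator (κ.comp
        (ContinuousLinearMap.snd ℝ (Fin 4 → WR (m + 1)) (ℂ × P2))) :=
      h1.comp_clm (ContinuousLinearMap.snd ℝ (Fin 4 → WR (m + 1)) (ℂ × P2))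
    exact h2.clm_comp (ContinuousLinearMap.inl ℝ (Fin 4 → WR m) (P2 × P2))
  have c3 : IsCompactOperator K3 := by
    have h1 : IsCompactOperator ρ := isCompactOperator_of_locallyCompactSpace_dom ρ
    exact h1.clm_comp (ContinuousLinearMap.inr ℝ (Fin 4 → WR m) (P2 × P2))
  rw [hsum]
  exact (c1.add c2).add c3

end Vale.Agent.P247.H332
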