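import Vale.Agent.P247.H332.K3.Full

/-!
# P247, package K3: the derivative of the full map is injective, hence bijective
-/

open scoped ContDiff Topology
open Set MeasureTheory Filter Metric Asymptotics

set_option linter.unusedSectionVars false

noncomputable section

namespace Vale.Agent.P247.H332

open Vale.Agent.P247.H74

variable (W : WA) {D : Data} {m : ℕ} (N : Nl D m)

theorem val_smooth (a : CForm) {n : WithTop ℕ∞} {x u v : P2 → R4} (hn : n ≤ ∞)
    (hx : ContDiff ℝ n x) (hu : ContDiff ℝ n u) (hv : ContDiff ℝ n v) :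
    ContDiff ℝ n fun p => a.val (x p) (u p) (v p) := by
  have h : (fun p => a.val (x p) (u p) (v p)) = fun p => bil a (x p) (u p) (v p) := by
    funext p
    rw [bil_apply]
  rw [h]
  exact ((((bil_smooth a).of_le hn).comp hx).clm_apply hu).clm_apply hv

theorem val_per (a : CForm) {f u v : P2 → R4} (hf : Per f) (hu : Per u) (hv : Per v) :
    Per fun p => a.val (phi f p) (u p) (v p) := by
  intro k l p
  have h1 := per_comp_phi hf (bil_per a) k l p
  simp only at h1
  show a.val (phi f (p.1 + k, p.2 + l)) (u (p.1 + k, p.2 + l)) (v (p.1 + k, p.2 + l)) = _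
  rw [← bil_apply, h1, hu k l p, hv k l p, bil_apply]

theorem injective_fderiv (h2 : LIN2_statement) (h3 : LIN3_statement) (h4 : LIN4_statement)
    (hm : 2 ≤ m) {a₀ : Fin 4 → WR (m + 1)} {τ₀ : ℂ} (hJ : JT D (evv a₀) τ₀) (hI : Imm (evv a₀))
    {E0 E1 : Fin 4 → WR m} (hE0 : evv E0 = obs D (evv a₀) 0) (hE1 : evv E1 = obs D (evv a₀) 1) :
    Function.Injective (fderiv ℝ (GG W N E0 E1) (a₀, τ₀, (0, 0))) := by
  rw [injective_iff_map_eq_zero]
  rintro ⟨v, σ, x, y⟩ h
  rw [fderiv_GG, Prod.mk_eq_zero, Prod.mk_eq_zero] at h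
  obtain ⟨k1, k2, k3⟩ := h
  simp only at k1 k2 k3
  rw [Prod.mk_eq_zero] at k2 k3
  have hv2 : ContDiff ℝ 2 (evv v) := (contDiff_evv W v).of_le (by
    have : 2 ≤ m + 1 := by omega
    exact_mod_cast this)
  have hvp : Per (evv v) := per_evv W v
  have hd : Differentiable ℝ (evv a₀) := hJ.smooth.differentiable (by simp)
  have hphi := contDiff_phi hJ.smooth
  have hds := contDiff_ds hphi
  have hdt := contDiff_dt hphi
  have hdsp := per_ds_phi hJ.per hd
  have hdtp := per_dt_phi hJ.per hd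
  -- the first equation, pointwise
  have hL : ∀ p, Lop D (evv a₀) τ₀ (evv v) σ p = x • obs D (evv a₀) 0 p + y • obs D (evv a₀) 1 p := by
    intro p
    have h5 := congrArg (fun a => evv a p) k1
    beta_reduce at h5
    rw [evv_sub, evv_sub, evv_smul, evv_smul, evv_fderiv_F W, hE0, hE1, evv_zero] at h5
    rw [sub_sub, sub_eq_zero] at h5
    exact h5
  -- the multipliers vanish
  have hmean : ∀ j : Fin 2, mean (fun p => ∑ k, obs D (evv a₀) j p k *
      (x • obs D (evv a₀) 0 p + y • obs D (evv a₀) 1 p) k) = 0 := by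
    intro j
    have h6 : (fun p => ∑ k, obs D (evv a₀) j p k *
        (x • obs D (evv a₀) 0 p + y • obs D (evv a₀) 1 p) k) = fun p =>
        ds (fun q => (D.η j).val (phi (evv a₀) q) (evv v q) (dt (phi (evv a₀)) q)) p
          - dt (fun q => (D.η j).val (phi (evv a₀) q) (evv v q) (ds (phi (evv a₀)) q)) p := by
      funext p
      rw [obs_dot, ← hL, h2 D (evv a₀) τ₀ (evv v) σ hJ hv2 hvp j p]
    have s1 : ContDiff ℝ 2 fun q =>
        (D.η j).val (phi (evv a₀) q) (evv v q) (dt (phi (evv a₀)) q) :=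
      val_smooth (D.η j) (by exact WithTop.coe_le_coe.2 le_top) (hphi.of_le (WithTop.coe_le_coe.2 le_top)) hv2
        (hdt.of_le (WithTop.coe_le_coe.2 le_top))
    have s2 : ContDiff ℝ 2 fun q =>
        (D.η j).val (phi (evv a₀) q) (evv v q) (ds (phi (evv a₀)) q) :=
      val_smooth (D.η j) (by exact WithTop.coe_le_coe.2 le_top) (hphi.of_le (WithTop.coe_le_coe.2 le_top)) hv2
        (hds.of_le (WithTop.coe_le_coe.2 le_top))
    have c1 : Continuous (ds fun q =>
        (D.η j).val (phi (evv a₀) q) (evv v q) (dt (phi (evv a₀)) q)) :=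
      (s1.continuous_fderiv (by simp)).clm_apply continuous_const
    have c2 : Continuous (dt fun q =>
        (D.η j).val (phi (evv a₀) q) (evv v q) (ds (phi (evv a₀)) q)) :=
      (s2.continuous_fderiv (by simp)).clm_apply continuous_const
    rw [h6, mean_sub c1 c2, mean_ds (s1.of_le (by norm_num)) (val_per _ hJ.per hvp hdtp),
      mean_dt (s2.of_le (by norm_num)) (val_per _ hJ.per hvp hdsp), sub_zero]
  have ho : ∀ i, Continuous (obs D (evv a₀) i) := fun i => (contDiff_obs D hJ.smooth i).continuous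
  have hsum : mean (fun p => ∑ k, (x • obs D (evv a₀) 0 p + y • obs D (evv a₀) 1 p) k ^ 2) = 0 := by
    have h7 : (fun p => ∑ k, (x • obs D (evv a₀) 0 p + y • obs D (evv a₀) 1 p) k ^ 2) = fun p =>
        x * (∑ k, obs D (evv a₀) 0 p k * (x • obs D (evv a₀) 0 p + y • obs D (evv a₀) 1 p) k)
        + y * (∑ k, obs D (evv a₀) 1 p k *
          (x • obs D (evv a₀) 0 p + y • obs D (evv a₀) 1 p) k) := by
      funext p
      rw [Finset.mul_sum, Finset.mul_sum, ← Finset.sum_add_distrib]
      refine Finset.sum_congr rfl fun k _ => ?_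
      simp only [Pi.add_apply, Pi.smul_apply, smul_eq_mul]
      ring
    have hcont : ∀ j : Fin 2, Continuous fun p => ∑ k, obs D (evv a₀) j p k *
        (x • obs D (evv a₀) 0 p + y • obs D (evv a₀) 1 p) k := by
      intro j
      have h0 := ho 0
      have h1 := ho 1
      have hj := ho j
      refine continuous_finsetSum _ fun k _ => ?_
      exact ((continuous_apply k).comp hj).mul ((continuous_apply k).comp
        ((h0.const_smul x).add (h1.const_smul y)))
    rw [h7, mean_add ((hcont 0).const_mul x) ((hcont 1).const_mul y), mean_mul, mean_mul,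
      hmean 0, hmean 1]
    simp
  have hxy : x = 0 ∧ y = 0 := by
    by_contra hcon
    have hpos : ∀ p, 0 < ∑ k, (x • obs D (evv a₀) 0 p + y • obs D (evv a₀) 1 p) k ^ 2 := by
      intro p
      rcases (Finset.sum_nonneg fun k (_ : k ∈ Finset.univ) =>
        sq_nonneg ((x • obs D (evv a₀) 0 p + y • obs D (evv a₀) 1 p) k)).eq_or_lt with h8 | h8
      · exfalso
        apply hcon
        refine obs_indep D (hI p) ?_
        funext k
        have h9 := (Finset.sum_eq_zero_iff_of_nonneg (fun k _ =>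
          sq_nonneg ((x • obs D (evv a₀) 0 p + y • obs D (evv a₀) 1 p) k))).1 h8.symm k
            (Finset.mem_univ k)
        exact pow_eq_zero_iff (two_ne_zero) |>.1 h9
      · exact h8
    have hcont : Continuous fun p =>
        ∑ k, (x • obs D (evv a₀) 0 p + y • obs D (evv a₀) 1 p) k ^ 2 := by
      refine continuous_finsetSum _ fun k _ => ?_
      exact ((continuous_apply k).comp (((ho 0).const_smul x).add ((ho 1).const_smul y))).pow 2
    have := mean_pos hcont hpos
    rw [hsum] at this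
    exact lt_irrefl _ this
  obtain ⟨rfl, rfl⟩ := hxy
  -- the kernel
  have hL0 : ∀ p, Lop D (evv a₀) τ₀ (evv v) σ p = 0 := by
    intro p
    rw [hL p]
    simp
  have m2 : mean (fun p => evv v p 2) = 0 := by
    rw [← k2.1, W.M_ev]
    rfl
  have m3 : mean (fun p => evv v p 3) = 0 := by
    rw [← k2.2, W.M_ev]
    rfl
  obtain ⟨f1, f2⟩ := h3 D (evv a₀) (evv v) hJ.smooth hJ.per hv2 hvp
  have n1 : mean (fun p => (D.η 0).val (phi (evv a₀) p) (evv v p) (ds (phi (evv a₀)) p)) = 0 := by
    rw [← f1, ← k3.1, W.M_ev]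
    congr 1
    funext p
    exact (ev_fderiv_q1 W N a₀ v p).symm
  have n2 : mean (fun p => (D.η 0).val (phi (evv a₀) p) (evv v p) (dt (phi (evv a₀)) p)) = 0 := by
    rw [← f2, ← k3.2, W.M_ev]
    congr 1
    funext p
    exact (ev_fderiv_q2 W N a₀ v p).symm
  obtain ⟨g1, g2⟩ := h4 D (evv a₀) τ₀ (evv v) σ hJ hI hv2 hvp hL0 m2 m3 n1 n2
  have hv0 : v = 0 := injv W fun p => by rw [g1 p, evv_zero]
  rw [hv0, g2]
  rfl

/-- the derivative as an isomorphism -/
theorem exists_equiv (hFR : FRAME_statement) (h2 : LIN2_statement) (h3 : LIN3_statement)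
    (h4 : LIN4_statement) (hm : 2 ≤ m) {a₀ : Fin 4 → WR (m + 1)} {τ₀ : ℂ} (hJ : JT D (evv a₀) τ₀)
    (hI : Imm (evv a₀)) {E0 E1 : Fin 4 → WR m} (hE0 : evv E0 = obs D (evv a₀) 0)
    (hE1 : evv E1 = obs D (evv a₀) 1) :
    ∃ L : XX m ≃L[ℝ] YY m, HasFDerivAt (GG W N E0 E1) (L : XX m →L[ℝ] YY m) (a₀, τ₀, (0, 0)) := by
  have hinj := injective_fderiv W N h2 h3 h4 hm hJ hI hE0 hE1
  obtain ⟨I, hI'⟩ := exists_iso_compact W N hFR a₀ hJ.smooth τ₀ hJ.im_pos E0 E1
  have hbij := fredholm_bijective I _ hI' hinj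
  refine ⟨ContinuousLinearEquiv.ofBijective (fderiv ℝ (GG W N E0 E1) (a₀, τ₀, (0, 0)))
    (LinearMap.ker_eq_bot.2 hbij.1) (LinearMap.range_eq_top.2 hbij.2), ?_⟩
  rw [ContinuousLinearEquiv.coe_ofBijective]
  exact ((contDiff_GG W N E0 E1).differentiable (by simp) _).hasFDerivAt

end Vale.Agent.P247.H332
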