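import Vale.Agent.P247.H332.K3.Inj

/-!
# P247, package K3: the local theorem in one space `WR (m + 1)`
-/

open scoped ContDiff Topology
open Set MeasureTheory Filter Metric Asymptotics

set_option linter.unusedSectionVars false

noncomputable section

namespace Vale.Agent.P247.H332

open Vale.Agent.P247.H74

variable (W : WA) {D : Data} {m : ℕ} (N : Nl D m)

/-- the pairing of the obstruction fields with the forms -/
def gram (E : Fin 4 → WR m) (j : Fin 2) (a : Fin 4 → WR (m + 1)) : ℝ := W.M m (N.B j (a, E))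

/-- its determinant -/
def gdet (E0 E1 : Fin 4 → WR m) (a : Fin 4 → WR (m + 1)) : ℝ :=
  gram W N E0 0 a * gram W N E1 1 a - gram W N E1 0 a * gram W N E0 1 a

theorem continuous_gram (E : Fin 4 → WR m) (j : Fin 2) : Continuous (gram W N E j) :=
  (W.M m).continuous.comp ((N.B_smooth j).continuous.comp (continuous_id.prodMk continuous_const))

theorem continuous_gdet (E0 E1 : Fin 4 → WR m) : Continuous (gdet W N E0 E1) :=
  ((continuous_gram W N E0 0).mul (continuous_gram W N E1 1)).sub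
    ((continuous_gram W N E1 0).mul (continuous_gram W N E0 1))

theorem gram_eq {a₀ : Fin 4 → WR (m + 1)} {E : Fin 4 → WR m} {i : Fin 2}
    (hE : evv E = obs D (evv a₀) i) (j : Fin 2) :
    gram W N E j a₀ = mean (fun p => ∑ k, obs D (evv a₀) j p k * obs D (evv a₀) i p k) := by
  rw [gram, W.M_ev]
  congr 1
  funext p
  rw [N.B_ev, obs_dot, hE]

theorem gdet_ne_zero {a₀ : Fin 4 → WR (m + 1)} (hs : ContDiff ℝ ∞ (evv a₀)) (hI : Imm (evv a₀))
    {E0 E1 : Fin 4 → WR m} (hE0 : evv E0 = obs D (evv a₀) 0)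
    (hE1 : evv E1 = obs D (evv a₀) 1) : gdet W N E0 E1 a₀ ≠ 0 := by
  have ho : ∀ i k, Continuous fun p => obs D (evv a₀) i p k := fun i k =>
    (continuous_apply k).comp (contDiff_obs D hs i).continuous
  have hc : ∀ i j, Continuous fun p => ∑ k, obs D (evv a₀) i p k * obs D (evv a₀) j p k :=
    fun i j => continuous_finsetSum _ fun k _ => (ho i k).mul (ho j k)
  set g00 := mean (fun p => ∑ k, obs D (evv a₀) 0 p k * obs D (evv a₀) 0 p k) with h00
  set g01 := mean (fun p => ∑ k, obs D (evv a₀) 0 p k * obs D (evv a₀) 1 p k) with h01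
  set g11 := mean (fun p => ∑ k, obs D (evv a₀) 1 p k * obs D (evv a₀) 1 p k) with h11
  have h10 : mean (fun p => ∑ k, obs D (evv a₀) 1 p k * obs D (evv a₀) 0 p k) = g01 := by
    rw [h01]
    congr 1
    funext p
    exact Finset.sum_congr rfl fun k _ => mul_comm _ _
  have e1 : gdet W N E0 E1 a₀ = g00 * g11 - g01 * g01 := by
    rw [gdet, gram_eq W N hE0, gram_eq W N hE0, gram_eq W N hE1, gram_eq W N hE1, h10]
  -- positivity of the quadratic form
  have hq : ∀ x y : ℝ, ¬(x = 0 ∧ y = 0) → 0 < x * x * g00 + 2 * x * y * g01 + y * y * g11 := by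
    intro x y hxy
    have hpos : ∀ p, 0 < ∑ k, (x • obs D (evv a₀) 0 p + y • obs D (evv a₀) 1 p) k ^ 2 := by
      intro p
      rcases (Finset.sum_nonneg fun k (_ : k ∈ Finset.univ) =>
        sq_nonneg ((x • obs D (evv a₀) 0 p + y • obs D (evv a₀) 1 p) k)).eq_or_lt with h8 | h8
      · exfalso
        apply hxy
        refine obs_indep D (hI p) ?_
        funext k
        have h9 := (Finset.sum_eq_zero_iff_of_nonneg (fun k _ =>
          sq_nonneg ((x • obs D (evv a₀) 0 p + y • obs D (evv a₀) 1 p) k))).1 h8.symm k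
            (Finset.mem_univ k)
        exact pow_eq_zero_iff (two_ne_zero) |>.1 h9
      · exact h8
    have hcont : Continuous fun p =>
        ∑ k, (x • obs D (evv a₀) 0 p + y • obs D (evv a₀) 1 p) k ^ 2 := by
      refine continuous_finsetSum _ fun k _ => ?_
      exact (((ho 0 k).const_mul x).add ((ho 1 k).const_mul y)).pow 2
    have h1 := mean_pos hcont hpos
    have h2 : (fun p => ∑ k, (x • obs D (evv a₀) 0 p + y • obs D (evv a₀) 1 p) k ^ 2) = fun p =>
        (x * x) * (∑ k, obs D (evv a₀) 0 p k * obs D (evv a₀) 0 p k)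
        + (2 * x * y) * (∑ k, obs D (evv a₀) 0 p k * obs D (evv a₀) 1 p k)
        + (y * y) * (∑ k, obs D (evv a₀) 1 p k * obs D (evv a₀) 1 p k) := by
      funext p
      rw [Finset.mul_sum, Finset.mul_sum, Finset.mul_sum, ← Finset.sum_add_distrib,
        ← Finset.sum_add_distrib]
      refine Finset.sum_congr rfl fun k _ => ?_
      simp only [Pi.add_apply, Pi.smul_apply, smul_eq_mul]
      ring
    have m1 : Continuous fun p => (x * x) * (∑ k, obs D (evv a₀) 0 p k * obs D (evv a₀) 0 p k) :=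
      (hc 0 0).const_mul _
    have m2 : Continuous fun p =>
        (2 * x * y) * (∑ k, obs D (evv a₀) 0 p k * obs D (evv a₀) 1 p k) :=
      (hc 0 1).const_mul _
    have m3 : Continuous fun p => (y * y) * (∑ k, obs D (evv a₀) 1 p k * obs D (evv a₀) 1 p k) :=
      (hc 1 1).const_mul _
    have m4 : Continuous fun p => (x * x) * (∑ k, obs D (evv a₀) 0 p k * obs D (evv a₀) 0 p k)
        + (2 * x * y) * (∑ k, obs D (evv a₀) 0 p k * obs D (evv a₀) 1 p k) := m1.add m2
    rw [h2, mean_add m4 m3, mean_add m1 m2, mean_mul, mean_mul, mean_mul] at h1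
    exact h1
  rw [e1]
  intro hdet
  have p0 : 0 < g00 := by
    have := hq 1 0 (by simp)
    simpa using this
  have p1 := hq g01 (-g00) (by
    rintro ⟨-, h⟩
    linarith)
  have : g01 * g01 * g00 + 2 * g01 * -g00 * g01 + -g00 * -g00 * g11
      = g00 * (g00 * g11 - g01 * g01) := by ring
  rw [this, hdet, mul_zero] at p1
  exact lt_irrefl _ p1

/-- the multipliers of a solution vanish near `a₀` -/
theorem multipliers (h1 : LIN1_statement) (hm : 2 ≤ m) {E0 E1 : Fin 4 → WR m}
    {a : Fin 4 → WR (m + 1)} {τ : ℂ} {x y : ℝ} (hdet : gdet W N E0 E1 a ≠ 0)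
    (h : N.F (a, τ) - x • E0 - y • E1 = 0) : x = 0 ∧ y = 0 := by
  have ha2 : ContDiff ℝ 2 (evv a) := (contDiff_evv W a).of_le (by
    have : 2 ≤ m + 1 := by omega
    exact_mod_cast this)
  have hF : ∀ p, Fop D (evv a) τ p = x • evv E0 p + y • evv E1 p := by
    intro p
    have h5 := congrArg (fun b => evv b p) h
    beta_reduce at h5
    rw [evv_sub, evv_sub, evv_smul, evv_smul, N.F_ev, evv_zero, sub_sub, sub_eq_zero] at h5
    exact h5
  have key : ∀ j : Fin 2, x * gram W N E0 j a + y * gram W N E1 j a = 0 := by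
    intro j
    have h6 := h1 D (evv a) τ ha2 (per_evv W a) j
    have h7 : W.M m (x • N.B j (a, E0) + y • N.B j (a, E1)) = 0 := by
      rw [W.M_ev, ← h6]
      congr 1
      funext p
      rw [ev_add, ev_smul, ev_smul, N.B_ev, N.B_ev, hF p, ← bil_apply, ← bil_apply, ← bil_apply,
        map_add, map_smul, map_smul, smul_eq_mul, smul_eq_mul]
    rw [map_add, map_smul, map_smul, smul_eq_mul, smul_eq_mul] at h7
    exact h7
  have k0 := key 0
  have k1 := key 1
  constructor
  · have : x * gdet W N E0 E1 a = 0 := by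
      unfold gdet
      linear_combination gram W N E1 1 a * k0 - gram W N E1 0 a * k1
    exact (mul_eq_zero.1 this).resolve_right hdet
  · have : y * gdet W N E0 E1 a = 0 := by
      unfold gdet
      linear_combination gram W N E0 0 a * k1 - gram W N E0 1 a * k0
    exact (mul_eq_zero.1 this).resolve_right hdet

theorem cen_iff (a : Fin 4 → WR (m + 1)) :
    Cen (evv a) ↔ ((W.M (m + 1) (a 2), W.M (m + 1) (a 3)) : P2) = 0 := by
  rw [Prod.mk_eq_zero, W.M_ev, W.M_ev]
  rfl

include W in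
theorem F_eq_zero_iff (a : Fin 4 → WR (m + 1)) (τ : ℂ) :
    N.F (a, τ) = 0 ↔ ∀ p, Fop D (evv a) τ p = 0 := by
  constructor
  · intro h p
    rw [← N.F_ev, h, evv_zero]
  · intro h
    exact injv W fun p => by rw [N.F_ev, h p, evv_zero]

theorem LOC : LOC_statement := by
  intro W hFR h1 h2 h3 h4 m hm D f₀ τ₀ hJ hC hI
  obtain ⟨a₀, rfl⟩ := exists_memv W (m + 1) f₀ hJ.smooth hJ.per
  obtain ⟨N⟩ := exists_Nl W D hm
  have hd : Differentiable ℝ (evv a₀) := hJ.smooth.differentiable (by simp)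
  obtain ⟨E0, hE0⟩ := exists_memv W m _ (contDiff_obs D hJ.smooth 0) (per_obs D hJ.per hd 0)
  obtain ⟨E1, hE1⟩ := exists_memv W m _ (contDiff_obs D hJ.smooth 1) (per_obs D hJ.per hd 1)
  obtain ⟨L, hL⟩ := exists_equiv W N hFR h2 h3 h4 hm hJ hI hE0 hE1
  have hG : ContDiffAt ℝ ∞ (GG W N E0 E1) (a₀, τ₀, (0, 0)) := (contDiff_GG W N E0 E1).contDiffAt
  set Φ := hG.toOpenPartialHomeomorph (GG W N E0 E1) hL (by simp) with hΦ
  have hΦc : ∀ x, Φ x = GG W N E0 E1 x := fun x => rfl
  have hsrc : (a₀, τ₀, (0, 0)) ∈ Φ.source := hG.mem_toOpenPartialHomeomorph_source hL (by simp)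
  have hG0 : GG W N E0 E1 (a₀, τ₀, (0, 0)) = (0, 0, flux D (evv a₀)) := by
    have hF0 : N.F (a₀, τ₀) = 0 := (F_eq_zero_iff W N a₀ τ₀).2 fun p => by
      rw [Fop, hJ.eq p]
      abel
    rw [GG]
    simp only [hF0, zero_smul, sub_zero, (cen_iff W a₀).1 hC, ← flux_eq_M W N a₀]
  have htgt : ((0, 0, flux D (evv a₀)) : YY m) ∈ Φ.target := by
    rw [← hG0]
    exact Φ.map_source hsrc
  -- the inverse
  let s : P2 → XX m := fun y => Φ.symm ((0, 0, y) : YY m)
  have hs0 : s (flux D (evv a₀)) = (a₀, τ₀, (0, 0)) := by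
    show Φ.symm ((0, 0, flux D (evv a₀)) : YY m) = _
    rw [← hG0]
    exact Φ.left_inv hsrc
  have hsymm : ContDiffAt ℝ ∞ Φ.symm ((0, 0, flux D (evv a₀)) : YY m) := by
    refine Φ.contDiffAt_symm htgt (f₀' := L) ?_ ?_
    · have : Φ.symm ((0, 0, flux D (evv a₀)) : YY m) = (a₀, τ₀, (0, 0)) := hs0
      rw [this]
      exact hL
    · have : Φ.symm ((0, 0, flux D (evv a₀)) : YY m) = (a₀, τ₀, (0, 0)) := hs0
      rw [this]
      exact hG
  have hj : ContDiff ℝ ∞ fun y : P2 => ((0, 0, y) : YY m) :=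
    contDiff_const.prodMk (contDiff_const.prodMk contDiff_id)
  have hs : ContDiffAt ℝ ∞ s (flux D (evv a₀)) :=
    ContDiffAt.comp (f := fun y : P2 => ((0, 0, y) : YY m)) _ hsymm hj.contDiffAt
  -- the radii
  let ι : (Fin 4 → WR (m + 1)) × ℂ → XX m := fun x => (x.1, x.2, (0, 0))
  have hι : Continuous ι := continuous_fst.prodMk (continuous_snd.prodMk continuous_const)
  obtain ⟨ρ, hρ, hρs⟩ := Metric.isOpen_iff.1 (Φ.open_source.preimage hι) (a₀, τ₀) hsrc
  let S : P2 → (Fin 4 → WR (m + 1)) × ℂ := fun y => ((s y).1, (s y).2.1)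
  have hSc : ContDiffAt ℝ ∞ S (flux D (evv a₀)) := by
    have g1 : ContDiff ℝ ∞ fun x : XX m => (x.1, x.2.1) :=
      contDiff_fst.prodMk (contDiff_fst.comp contDiff_snd)
    exact ContDiffAt.comp (g := fun x : XX m => (x.1, x.2.1)) (f := s) _ g1.contDiffAt hs
  have hS0 : S (flux D (evv a₀)) = (a₀, τ₀) := by
    show ((s (flux D (evv a₀))).1, (s (flux D (evv a₀))).2.1) = _
    rw [hs0]
  have hev : ∀ᶠ y in 𝓝 (flux D (evv a₀)), ((0, 0, y) : YY m) ∈ Φ.target ∧
      S y ∈ ball (a₀, τ₀) ρ ∧ 0 < (S y).2.im ∧ gdet W N E0 E1 (S y).1 ≠ 0 := by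
    have c1 : ∀ᶠ y in 𝓝 (flux D (evv a₀)), ((0, 0, y) : YY m) ∈ Φ.target :=
      hj.continuous.continuousAt.eventually (Φ.open_target.mem_nhds htgt)
    have c2 : ContinuousAt S (flux D (evv a₀)) := hSc.continuousAt
    have c3 : ∀ᶠ y in 𝓝 (flux D (evv a₀)), S y ∈ ball (a₀, τ₀) ρ := by
      refine c2.eventually ?_
      rw [hS0]
      exact ball_mem_nhds _ hρ
    have c4 : ∀ᶠ y in 𝓝 (flux D (evv a₀)), 0 < (S y).2.im := by
      have : ContinuousAt (fun y => (S y).2.im) (flux D (evv a₀)) :=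
        (Complex.continuous_im.comp continuous_snd).continuousAt.comp c2
      have h0 : 0 < (S (flux D (evv a₀))).2.im := by
        rw [hS0]
        exact hJ.im_pos
      exact this.eventually (lt_mem_nhds h0)
    have c5 : ∀ᶠ y in 𝓝 (flux D (evv a₀)), gdet W N E0 E1 (S y).1 ≠ 0 := by
      have : ContinuousAt (fun y => gdet W N E0 E1 (S y).1) (flux D (evv a₀)) :=
        ((continuous_gdet W N E0 E1).comp continuous_fst).continuousAt.comp c2
      refine this.eventually_ne ?_
      rw [hS0]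
      exact gdet_ne_zero W N hJ.smooth hI hE0 hE1
    filter_upwards [c1, c3, c4, c5] with y k1 k2 k3 k4
    exact ⟨k1, k2, k3, k4⟩
  obtain ⟨ε, hε, hεs⟩ := Metric.eventually_nhds_iff_ball.1 hev
  refine ⟨a₀, rfl, ρ, hρ, ε, hε, S, hSc, ?_, hS0, ?_, ?_⟩
  · -- continuity
    have c1 : ContinuousOn s (ball (flux D (evv a₀)) ε) :=
      Φ.continuousOn_symm.comp hj.continuous.continuousOn fun y hy => (hεs y hy).1
    exact (continuous_fst.comp_continuousOn c1).prodMk
      ((continuous_fst.comp continuous_snd).comp_continuousOn c1)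
  · -- solutions
    intro y hy
    obtain ⟨k1, k2, k3, k4⟩ := hεs y hy
    have hGs : GG W N E0 E1 (s y) = (0, 0, y) := by
      rw [← hΦc]
      exact Φ.right_inv k1
    rw [GG, Prod.mk.injEq, Prod.mk.injEq] at hGs
    obtain ⟨g1, g2, g3⟩ := hGs
    obtain ⟨l0, l1⟩ := multipliers W N h1 hm k4 g1
    rw [l0, l1, zero_smul, zero_smul, sub_zero, sub_zero] at g1
    refine ⟨k2, k3, (F_eq_zero_iff W N _ _).1 g1, (cen_iff W _).2 g2, ?_⟩
    rw [flux_eq_M W N]
    exact g3
  · -- uniqueness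
    intro x hx hF hCen hfl
    have hxs : ι x ∈ Φ.source := hρs hx
    have hGx : GG W N E0 E1 (ι x) = (0, 0, flux D (evv x.1)) := by
      have hF0 : N.F (x.1, x.2) = 0 := (F_eq_zero_iff W N x.1 x.2).2 hF
      show (N.F (x.1, x.2) - (0 : ℝ) • E0 - (0 : ℝ) • E1,
        ((W.M (m + 1) (x.1 2), W.M (m + 1) (x.1 3)) : P2),
        ((W.M m (N.q1 x.1), W.M m (N.q2 x.1)) : P2)) = _
      rw [hF0, zero_smul, zero_smul, sub_zero, sub_zero, (cen_iff W x.1).1 hCen,
        ← flux_eq_M W N x.1]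
    have h5 : s (flux D (evv x.1)) = ι x := by
      show Φ.symm ((0, 0, flux D (evv x.1)) : YY m) = _
      rw [← hGx]
      exact Φ.left_inv hxs
    show x = ((s (flux D (evv x.1))).1, (s (flux D (evv x.1))).2.1)
    rw [h5]

end Vale.Agent.P247.H332
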