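import Vale.Agent.P247.H332.K3.Sup

/-!
# P247, package K3: the nonlinear operators
-/

open scoped ContDiff Topology
open Set MeasureTheory Filter Metric Asymptotics

noncomputable section

namespace Vale.Agent.P247.H332

open Vale.Agent.P247.H74

/-! ### the closed forms as bilinear fields -/

theorem fderiv_per4 {E : Type*} [NormedAddCommGroup E] [NormedSpace ℝ E] {F : R4 → E}
    (hF : Per4 F) : Per4 (fderiv ℝ F) := by
  intro n x
  have h1 : (fun y : R4 => F (y + fun i => (n i : ℝ))) = F := by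
    funext y
    exact hF n y
  have h2 := fderiv_comp_add_right (𝕜 := ℝ) (f := F) (x := x) (fun i => (n i : ℝ))
  rw [h1] at h2
  exact h2.symm

/-- the closed form as a field of bilinear forms -/
def bil (a : CForm) (x : R4) : R4 →L[ℝ] R4 →L[ℝ] ℝ :=
  a.κ + fderiv ℝ a.lam x - (fderiv ℝ a.lam x).flip

theorem bil_apply (a : CForm) (x u v : R4) : bil a x u v = a.val x u v := by
  simp [bil, CForm.val]

theorem bil_smooth (a : CForm) : ContDiff ℝ ∞ (bil a) := by
  have h1 : ContDiff ℝ ∞ (fderiv ℝ a.lam) := a.lam_smooth.fderiv_right (by simp)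
  refine contDiff_clm_apply_iff.2 fun u => contDiff_clm_apply_iff.2 fun v => ?_
  have h2 : (fun x => bil a x u v) = fun x =>
      a.κ u v + fderiv ℝ a.lam x u v - fderiv ℝ a.lam x v u := by
    funext x
    simp [bil]
  rw [h2]
  exact (contDiff_const.add ((h1.clm_apply contDiff_const).clm_apply contDiff_const)).sub
    ((h1.clm_apply contDiff_const).clm_apply contDiff_const)

theorem bil_per (a : CForm) : Per4 (bil a) := by
  intro n x
  have h := fderiv_per4 a.lam_per n x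
  unfold bil
  rw [h]

variable (W : WA)

/-- the nonlinear operators -/
structure Nl (D : Data) (m : ℕ) where
  F : (Fin 4 → WR (m + 1)) × ℂ → (Fin 4 → WR m)
  F_smooth : ContDiff ℝ ∞ F
  F_ev : ∀ a τ p, evv (F (a, τ)) p = Fop D (evv a) τ p
  q1 : (Fin 4 → WR (m + 1)) → WR m
  q2 : (Fin 4 → WR (m + 1)) → WR m
  q1_smooth : ContDiff ℝ ∞ q1
  q2_smooth : ContDiff ℝ ∞ q2
  q1_ev : ∀ a p, ev (q1 a) p = (D.η 0).lam (phi (evv a) p) (ds (phi (evv a)) p)
    - (D.η 0).κ (e 2) (evv a p) + (1 / 2) * (D.η 0).κ (evv a p) (ds (evv a) p)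
  q2_ev : ∀ a p, ev (q2 a) p = (D.η 0).lam (phi (evv a) p) (dt (phi (evv a)) p)
    - (D.η 0).κ (e 3) (evv a p) + (1 / 2) * (D.η 0).κ (evv a p) (dt (evv a) p)
  B : Fin 2 → (Fin 4 → WR (m + 1)) × (Fin 4 → WR m) → WR m
  B_smooth : ∀ j, ContDiff ℝ ∞ (B j)
  B_ev : ∀ j a w p, ev (B j (a, w)) p =
    (D.η j).val (phi (evv a) p) (ds (phi (evv a)) p) (evv w p)

include W

theorem exists_Nl (D : Data) {m : ℕ} (hm : 2 ≤ m) : Nonempty (Nl D m) := by
  obtain ⟨NJ, hNJ, hNJe⟩ := exists_supM W hm D.J D.J_smooth D.J_per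
  obtain ⟨Nl0, hNl0, hNl0e⟩ := exists_supF W hm (D.η 0).lam (D.η 0).lam_smooth (D.η 0).lam_per
  obtain ⟨Nk, hNk, hNke⟩ := exists_supB W hm (fun _ => (D.η 0).κ) contDiff_const
    (fun _ _ => rfl)
  have hB : ∀ j : Fin 2, ∃ N : (Fin 4 → WR m) × (Fin 4 → WR m) × (Fin 4 → WR m) → WR m,
      ContDiff ℝ ∞ N ∧ ∀ f u w p, ev (N (f, u, w)) p =
        bil (D.η j) (phi (evv f) p) (evv u p) (evv w p) := fun j =>
    exists_supB W hm (bil (D.η j)) (bil_smooth _) (bil_per _)
  choose NB hNB hNBe using hB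
  -- linear ingredients
  set X := Fin 4 → WR (m + 1) with hX
  let us : X → (Fin 4 → WR m) := fun a => conv W m (e 2) + Sv W m a
  let ut : X → (Fin 4 → WR m) := fun a => conv W m (e 3) + Tv W m a
  have hus : ContDiff ℝ ∞ us := contDiff_const.add (Sv W m).contDiff
  have hut : ContDiff ℝ ∞ ut := contDiff_const.add (Tv W m).contDiff
  have use : ∀ a p, evv (us a) p = ds (phi (evv a)) p := fun a p => by
    rw [ds_phi (differentiable_evv W a p), ds_evv W, ← evv_conv W (m := m) (e 2) p, ← evv_add]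
  have ute : ∀ a p, evv (ut a) p = dt (phi (evv a)) p := fun a p => by
    rw [dt_phi (differentiable_evv W a p), dt_evv W, ← evv_conv W (m := m) (e 3) p, ← evv_add]
  have hphi : ∀ (a : X) p, phi (evv (incv W m a)) p = phi (evv a) p := fun a p => by
    rw [phi, phi, evv_incv W]
  have hi : ContDiff ℝ ∞ (incv W m) := (incv W m).contDiff
  refine ⟨{
    F := fun q => ut q.1 - q.2.re • us q.1 - q.2.im • NJ (incv W m q.1, us q.1)
    F_smooth := ?_
    F_ev := fun a τ p => ?_
    q1 := fun a => Nl0 (incv W m a, us a) - Nk (incv W m a, conv W m (e 2), incv W m a)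
      + (1 / 2 : ℝ) • Nk (incv W m a, incv W m a, Sv W m a)
    q2 := fun a => Nl0 (incv W m a, ut a) - Nk (incv W m a, conv W m (e 3), incv W m a)
      + (1 / 2 : ℝ) • Nk (incv W m a, incv W m a, Tv W m a)
    q1_smooth := ?_
    q2_smooth := ?_
    q1_ev := fun a p => ?_
    q2_ev := fun a p => ?_
    B := fun j q => NB j (incv W m q.1, us q.1, q.2)
    B_smooth := fun j => ?_
    B_ev := fun j a w p => ?_ }⟩
  · have h1 : ContDiff ℝ ∞ fun q : X × ℂ => q.2.re := Complex.reCLM.contDiff.comp contDiff_snd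
    have h2 : ContDiff ℝ ∞ fun q : X × ℂ => q.2.im := Complex.imCLM.contDiff.comp contDiff_snd
    refine ((hut.comp contDiff_fst).sub (h1.smul (hus.comp contDiff_fst))).sub (h2.smul ?_)
    exact hNJ.comp ((hi.comp contDiff_fst).prodMk (hus.comp contDiff_fst))
  · simp only [evv_sub, evv_smul, hNJe, use, ute, hphi]
    rfl
  · exact ((hNl0.comp (hi.prodMk hus)).sub (hNk.comp (hi.prodMk (contDiff_const.prodMk hi)))).add
      ((hNk.comp (hi.prodMk (hi.prodMk (Sv W m).contDiff))).const_smul (1 / 2 : ℝ))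
  · exact ((hNl0.comp (hi.prodMk hut)).sub (hNk.comp (hi.prodMk (contDiff_const.prodMk hi)))).add
      ((hNk.comp (hi.prodMk (hi.prodMk (Tv W m).contDiff))).const_smul (1 / 2 : ℝ))
  · simp only [ev_add, ev_sub, ev_smul, hNl0e, hNke, use, hphi, evv_conv W, evv_incv W,
      ← ds_evv W]
  · simp only [ev_add, ev_sub, ev_smul, hNl0e, hNke, ute, hphi, evv_conv W, evv_incv W,
      ← dt_evv W]
  · exact (hNB j).comp ((hi.comp contDiff_fst).prodMk ((hus.comp contDiff_fst).prodMk contDiff_snd))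
  · rw [hNBe, bil_apply, use, hphi]

/-- the flux -/
theorem flux_eq_M {D : Data} {m : ℕ} (N : Nl D m) (a : Fin 4 → WR (m + 1)) :
    flux D (evv a) = (W.M m (N.q1 a), W.M m (N.q2 a)) := by
  rw [W.M_ev, W.M_ev]
  unfold flux
  have h1 : ev (N.q1 a) = fun p => (D.η 0).lam (phi (evv a) p) (ds (phi (evv a)) p)
    - (D.η 0).κ (e 2) (evv a p) + (1 / 2) * (D.η 0).κ (evv a p) (ds (evv a) p) := by
    funext p
    exact N.q1_ev a p
  have h2 : ev (N.q2 a) = fun p => (D.η 0).lam (phi (evv a) p) (dt (phi (evv a)) p)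
    - (D.η 0).κ (e 3) (evv a p) + (1 / 2) * (D.η 0).κ (evv a p) (dt (evv a) p) := by
    funext p
    exact N.q2_ev a p
  rw [h1, h2]

end Vale.Agent.P247.H332
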