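import Vale.Agent.P247.H332.K3.Sta

/-!
# P247, package K3: evaluation of elements of `WR m`, vector valued operators
-/

open scoped ContDiff Topology
open Set MeasureTheory Filter Metric Asymptotics

noncomputable section

namespace Vale.Agent.P247.H332

open Vale.Agent.P247.H74

/-! ### linearity of the evaluation -/

/-- the underlying summable family -/
def und {m : ℕ} (a : WR m) : ℤ × ℤ → ℂ := ((show realSub from a).1 : ℤ × ℤ → ℂ)

theorem und_add {m : ℕ} (a b : WR m) (n : ℤ × ℤ) : und (a + b) n = und a n + und b n := rfl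

theorem und_smul {m : ℕ} (c : ℝ) (a : WR m) (n : ℤ × ℤ) : und (c • a) n = (c : ℂ) * und a n := by
  change c • und a n = _
  rw [Complex.real_smul]

theorem cf_add {m : ℕ} (a b : WR m) (n : ℤ × ℤ) : cf (a + b) n = cf a n + cf b n := by
  change und (a + b) n / _ = und a n / _ + und b n / _
  rw [und_add, add_div]

theorem cf_smul {m : ℕ} (c : ℝ) (a : WR m) (n : ℤ × ℤ) : cf (c • a) n = (c : ℂ) * cf a n := by
  change und (c • a) n / _ = _ * (und a n / _)
  rw [und_smul, mul_div_assoc]

theorem summable_und {m : ℕ} (a : WR m) : Summable fun n => ‖und a n‖ := by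
  have h := lp.memℓp (show realSub from a).1
  have h2 := h.summable (by norm_num)
  simp only [ENNReal.toReal_one, Real.rpow_one] at h2
  exact h2

theorem one_le_wt (n : ℤ × ℤ) : 1 ≤ wt n := by
  unfold wt
  have := abs_nonneg (n.1 : ℝ)
  have := abs_nonneg (n.2 : ℝ)
  linarith

theorem norm_cf_le {m : ℕ} (a : WR m) (n : ℤ × ℤ) : ‖cf a n‖ ≤ ‖und a n‖ := by
  change ‖und a n / ((wt n : ℝ) : ℂ) ^ m‖ ≤ _
  rw [norm_div, norm_pow, Complex.norm_real, Real.norm_of_nonneg (zero_le_one.trans (one_le_wt n))]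
  exact div_le_self (norm_nonneg _) (one_le_pow₀ (one_le_wt n))

theorem norm_ch (n : ℤ × ℤ) (p : P2) : ‖ch n p‖ = 1 := by
  unfold ch
  have : 2 * (Real.pi : ℂ) * Complex.I * ((n.1 : ℂ) * (p.1 : ℂ) + (n.2 : ℂ) * (p.2 : ℂ)) =
      ((2 * Real.pi * (n.1 * p.1 + n.2 * p.2) : ℝ) : ℂ) * Complex.I := by
    push_cast
    ring
  rw [this, Complex.norm_exp_ofReal_mul_I]

theorem summable_ev {m : ℕ} (a : WR m) (p : P2) : Summable fun n => (cf a n * ch n p).re := by
  refine Summable.of_norm_bounded (summable_und a) fun n => ?_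
  refine (Complex.abs_re_le_norm _).trans ?_
  rw [norm_mul, norm_ch, mul_one]
  exact norm_cf_le a n

theorem ev_add {m : ℕ} (a b : WR m) (p : P2) : ev (a + b) p = ev a p + ev b p := by
  unfold ev
  rw [← (summable_ev a p).tsum_add (summable_ev b p)]
  congr 1
  funext n
  rw [cf_add, add_mul, Complex.add_re]

theorem ev_smul {m : ℕ} (c : ℝ) (a : WR m) (p : P2) : ev (c • a) p = c * ev a p := by
  unfold ev
  rw [← tsum_mul_left]
  congr 1
  funext n
  rw [cf_smul, mul_assoc, Complex.re_ofReal_mul]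

theorem norm_ev_le {m : ℕ} (a : WR m) (p : P2) : ‖ev a p‖ ≤ ‖a‖ := by
  have h1 : ‖a‖ = ∑' n, ‖und a n‖ := by
    have h := lp.norm_eq_tsum_rpow (p := 1) (by norm_num) (show realSub from a).1
    have h2 : ‖a‖ = ‖(show realSub from a).1‖ := rfl
    rw [h2, h]
    simp [und]
  unfold ev
  refine (norm_tsum_le_tsum_norm (Summable.of_nonneg_of_le (fun n => norm_nonneg _)
    (fun n => ?_) (summable_und a))).trans ?_
  · refine (Complex.abs_re_le_norm _).trans ?_
    rw [norm_mul, norm_ch, mul_one]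
    exact norm_cf_le a n
  rw [h1]
  refine Summable.tsum_le_tsum (fun n => ?_) ?_ (summable_und a)
  · refine (Complex.abs_re_le_norm _).trans ?_
    rw [norm_mul, norm_ch, mul_one]
    exact norm_cf_le a n
  · refine Summable.of_nonneg_of_le (fun n => norm_nonneg _) (fun n => ?_) (summable_und a)
    refine (Complex.abs_re_le_norm _).trans ?_
    rw [norm_mul, norm_ch, mul_one]
    exact norm_cf_le a n

/-- the evaluation at `p` as a continuous linear map -/
def evL (m : ℕ) (p : P2) : WR m →L[ℝ] ℝ :=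
  LinearMap.mkContinuous
    { toFun := fun a => ev a p
      map_add' := fun a b => ev_add a b p
      map_smul' := fun c a => ev_smul c a p } 1 fun a => by
        rw [one_mul]
        exact norm_ev_le a p

@[simp] theorem evL_apply (m : ℕ) (p : P2) (a : WR m) : evL m p a = ev a p := rfl

theorem ev_zero {m : ℕ} (p : P2) : ev (0 : WR m) p = 0 := (evL m p).map_zero

theorem ev_neg {m : ℕ} (a : WR m) (p : P2) : ev (-a) p = -ev a p := (evL m p).map_neg a

theorem ev_sub {m : ℕ} (a b : WR m) (p : P2) : ev (a - b) p = ev a p - ev b p :=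
  (evL m p).map_sub a b

theorem ev_sum {m : ℕ} {ι : Type*} (s : Finset ι) (a : ι → WR m) (p : P2) :
    ev (∑ i ∈ s, a i) p = ∑ i ∈ s, ev (a i) p := map_sum (evL m p) a s

/-- the vector valued evaluation as a continuous linear map -/
def evvL (m : ℕ) (p : P2) : (Fin 4 → WR m) →L[ℝ] R4 :=
  ContinuousLinearMap.pi fun i => (evL m p).comp (ContinuousLinearMap.proj i)

@[simp] theorem evvL_apply (m : ℕ) (p : P2) (a : Fin 4 → WR m) : evvL m p a = evv a p := rfl

theorem evv_add {m : ℕ} (a b : Fin 4 → WR m) (p : P2) : evv (a + b) p = evv a p + evv b p :=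
  (evvL m p).map_add a b

theorem evv_smul {m : ℕ} (c : ℝ) (a : Fin 4 → WR m) (p : P2) : evv (c • a) p = c • evv a p :=
  (evvL m p).map_smul c a

theorem evv_sub {m : ℕ} (a b : Fin 4 → WR m) (p : P2) : evv (a - b) p = evv a p - evv b p :=
  (evvL m p).map_sub a b

theorem evv_zero {m : ℕ} (p : P2) : evv (0 : Fin 4 → WR m) p = 0 := (evvL m p).map_zero

/-! ### calculus on `P2` -/

theorem lin_eq (p : P2) : lin p = p.1 • e 2 + p.2 • e 3 := by
  ext i
  fin_cases i <;> simp [lin, e]

/-- `lin` as a continuous linear map -/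
def linL : P2 →L[ℝ] R4 :=
  (ContinuousLinearMap.fst ℝ ℝ ℝ).smulRight (e 2) + (ContinuousLinearMap.snd ℝ ℝ ℝ).smulRight (e 3)

theorem linL_apply (p : P2) : linL p = lin p := by
  rw [lin_eq]
  rfl

theorem contDiff_lin {n : WithTop ℕ∞} : ContDiff ℝ n lin := by
  have : lin = fun p => linL p := by funext p; rw [linL_apply]
  rw [this]
  exact linL.contDiff

theorem hasFDerivAt_lin (p : P2) : HasFDerivAt lin linL p := by
  have : lin = fun p => linL p := by funext p; rw [linL_apply]
  rw [this]
  exact linL.hasFDerivAt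

theorem ds_phi {f : P2 → R4} {p : P2} (h : DifferentiableAt ℝ f p) :
    ds (phi f) p = e 2 + ds f p := by
  have h1 : HasFDerivAt (phi f) (linL + fderiv ℝ f p) p := (hasFDerivAt_lin p).add h.hasFDerivAt
  rw [ds, h1.fderiv, add_apply, linL_apply, lin_eq]
  simp [ds]

theorem dt_phi {f : P2 → R4} {p : P2} (h : DifferentiableAt ℝ f p) :
    dt (phi f) p = e 3 + dt f p := by
  have h1 : HasFDerivAt (phi f) (linL + fderiv ℝ f p) p := (hasFDerivAt_lin p).add h.hasFDerivAt
  rw [dt, h1.fderiv, add_apply, linL_apply, lin_eq]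
  simp [dt]

variable (W : WA)

include W

theorem contDiff_ev {m : ℕ} (a : WR m) : ContDiff ℝ m (ev a) :=
  (W.ev_smooth m).comp (f := fun p : P2 => (a, p)) (contDiff_const.prodMk contDiff_id)

theorem contDiff_evv {m : ℕ} (a : Fin 4 → WR m) : ContDiff ℝ m (evv a) :=
  contDiff_pi.2 fun i => contDiff_ev W (a i)

theorem differentiable_ev {m : ℕ} (a : WR (m + 1)) : Differentiable ℝ (ev a) :=
  (contDiff_ev W a).differentiable (by exact_mod_cast Nat.succ_ne_zero m)

theorem differentiable_evv {m : ℕ} (a : Fin 4 → WR (m + 1)) : Differentiable ℝ (evv a) :=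
  (contDiff_evv W a).differentiable (by exact_mod_cast Nat.succ_ne_zero m)

theorem per_evv {m : ℕ} (a : Fin 4 → WR m) : Per (evv a) := by
  intro k l p
  funext i
  exact W.ev_per m (a i) k l p

/-- derivatives of vector valued functions -/
def Sv (m : ℕ) : (Fin 4 → WR (m + 1)) →L[ℝ] (Fin 4 → WR m) :=
  ContinuousLinearMap.pi fun i => (W.S m).comp (ContinuousLinearMap.proj i)

def Tv (m : ℕ) : (Fin 4 → WR (m + 1)) →L[ℝ] (Fin 4 → WR m) :=
  ContinuousLinearMap.pi fun i => (W.T m).comp (ContinuousLinearMap.proj i)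

def incv (m : ℕ) : (Fin 4 → WR (m + 1)) →L[ℝ] (Fin 4 → WR m) :=
  ContinuousLinearMap.pi fun i => (W.inc m).comp (ContinuousLinearMap.proj i)

theorem evv_incv {m : ℕ} (a : Fin 4 → WR (m + 1)) (p : P2) : evv (incv W m a) p = evv a p := by
  funext i
  exact W.inc_ev m (a i) p

theorem ds_evv {m : ℕ} (a : Fin 4 → WR (m + 1)) (p : P2) : ds (evv a) p = evv (Sv W m a) p := by
  have h : HasFDerivAt (evv a) (ContinuousLinearMap.pi fun i => fderiv ℝ (ev (a i)) p) p :=
    hasFDerivAt_pi.2 fun i => ((differentiable_ev W (a i)) p).hasFDerivAt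
  rw [ds, h.fderiv]
  funext i
  exact (W.S_ev m (a i) p).symm

theorem dt_evv {m : ℕ} (a : Fin 4 → WR (m + 1)) (p : P2) : dt (evv a) p = evv (Tv W m a) p := by
  have h : HasFDerivAt (evv a) (ContinuousLinearMap.pi fun i => fderiv ℝ (ev (a i)) p) p :=
    hasFDerivAt_pi.2 fun i => ((differentiable_ev W (a i)) p).hasFDerivAt
  rw [dt, h.fderiv]
  funext i
  exact (W.T_ev m (a i) p).symm

theorem isCompactOperator_incv (m : ℕ) : IsCompactOperator (incv W m) := by
  classical
  have h : (incv W m : (Fin 4 → WR (m + 1)) → (Fin 4 → WR m)) = ∑ i : Fin 4,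
      ((ContinuousLinearMap.single ℝ (fun _ : Fin 4 => WR m) i).comp
        ((W.inc m).comp (ContinuousLinearMap.proj i)) : (Fin 4 → WR (m + 1)) → (Fin 4 → WR m)) := by
    funext a
    rw [Finset.sum_apply]
    funext j
    rw [Finset.sum_apply]
    simp [incv, Pi.single_apply]
  rw [h]
  have key : ∀ s : Finset (Fin 4), IsCompactOperator (∑ i ∈ s,
      ((ContinuousLinearMap.single ℝ (fun _ : Fin 4 => WR m) i).comp
        ((W.inc m).comp (ContinuousLinearMap.proj i)) :
          (Fin 4 → WR (m + 1)) → (Fin 4 → WR m))) := by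
    intro s
    induction s using Finset.induction_on with
    | empty =>
      rw [Finset.sum_empty]
      exact isCompactOperator_zero
    | insert i s hi ih =>
      rw [Finset.sum_insert hi]
      refine IsCompactOperator.add ?_ ih
      have h1 : IsCompactOperator ((W.inc m).comp
          (ContinuousLinearMap.proj i : (Fin 4 → WR (m + 1)) →L[ℝ] WR (m + 1))) :=
        (W.inc_compact m).comp_clm
          (ContinuousLinearMap.proj i : (Fin 4 → WR (m + 1)) →L[ℝ] WR (m + 1))
      exact h1.clm_comp (ContinuousLinearMap.single ℝ (fun _ : Fin 4 => WR m) i)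
  exact key _

theorem injv {m : ℕ} {a b : Fin 4 → WR m} (h : ∀ p, evv a p = evv b p) : a = b := by
  funext i
  refine W.inj m _ _ ?_
  funext p
  exact congrFun (h p) i

/-- constant vector valued functions -/
def conv (m : ℕ) : R4 →L[ℝ] (Fin 4 → WR m) :=
  ContinuousLinearMap.pi fun i => (W.con m).comp (ContinuousLinearMap.proj i)

theorem evv_conv {m : ℕ} (u : R4) (p : P2) : evv (conv W m u) p = u := by
  funext i
  exact W.con_ev m (u i) p

end Vale.Agent.P247.H332
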