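import Vale.Agent.P247.H332.K3.Fred

/-!
# P247, package K3: the linearised operator is the model operator plus a compact operator
-/

open scoped ContDiff Topology
open Set MeasureTheory Filter Metric Asymptotics

set_option linter.unusedSectionVars false

noncomputable section

namespace Vale.Agent.P247.H332

open Vale.Agent.P247.H74

section per

variable {E : Type*} [NormedAddCommGroup E] [NormedSpace ℝ E]

theorem per_fderiv {g : P2 → E} (hg : Per g) : Per (fderiv ℝ g) := by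
  intro k l p
  have h1 : (fun y : P2 => g (y + ((k : ℝ), (l : ℝ)))) = g := by
    funext y
    exact hg k l y
  have h2 := fderiv_comp_add_right (𝕜 := ℝ) (f := g) (x := p) ((k : ℝ), (l : ℝ))
  rw [h1] at h2
  exact h2.symm

theorem per_ds {g : P2 → E} (hg : Per g) : Per (ds g) := by
  intro k l p
  simp only [ds, per_fderiv hg k l p]

theorem per_dt {g : P2 → E} (hg : Per g) : Per (dt g) := by
  intro k l p
  simp only [dt, per_fderiv hg k l p]

theorem contDiff_ds {g : P2 → E} (hg : ContDiff ℝ ∞ g) : ContDiff ℝ ∞ (ds g) :=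
  (hg.fderiv_right (m := ∞) (by simp)).clm_apply contDiff_const

theorem contDiff_dt {g : P2 → E} (hg : ContDiff ℝ ∞ g) : ContDiff ℝ ∞ (dt g) :=
  (hg.fderiv_right (m := ∞) (by simp)).clm_apply contDiff_const

theorem phi_shift {f : P2 → R4} (hf : Per f) (k l : ℤ) (p : P2) :
    phi f (p.1 + k, p.2 + l) = fun i => phi f p i + ((![0, 0, k, l] : Fin 4 → ℤ) i : ℝ) := by
  funext i
  rw [phi, hf k l p]
  fin_cases i <;> simp [phi, lin] <;> ring

theorem per_comp_phi {f : P2 → R4} (hf : Per f) {A : R4 → E} (hA : Per4 A) :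
    Per fun p => A (phi f p) := by
  intro k l p
  show A (phi f (p.1 + k, p.2 + l)) = A (phi f p)
  rw [phi_shift hf, hA]

theorem contDiff_phi {f : P2 → R4} (hf : ContDiff ℝ ∞ f) : ContDiff ℝ ∞ (phi f) :=
  contDiff_lin.add hf

theorem per_ds_phi {f : P2 → R4} (hf : Per f) (hd : Differentiable ℝ f) : Per (ds (phi f)) := by
  intro k l p
  rw [ds_phi (hd _), ds_phi (hd _), per_ds hf k l p]

theorem per_dt_phi {f : P2 → R4} (hf : Per f) (hd : Differentiable ℝ f) : Per (dt (phi f)) := by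
  intro k l p
  rw [dt_phi (hd _), dt_phi (hd _), per_dt hf k l p]

/-- product rule -/
theorem ds_clm_apply {Q : P2 → R4 →L[ℝ] E} {w : P2 → R4} {p : P2} (hQ : DifferentiableAt ℝ Q p)
    (hw : DifferentiableAt ℝ w p) : ds (fun q => Q q (w q)) p = ds Q p (w p) + Q p (ds w p) := by
  simp only [ds]
  rw [fderiv_clm_apply hQ hw]
  simp [add_comm]

theorem dt_clm_apply {Q : P2 → R4 →L[ℝ] E} {w : P2 → R4} {p : P2} (hQ : DifferentiableAt ℝ Q p)
    (hw : DifferentiableAt ℝ w p) : dt (fun q => Q q (w q)) p = dt Q p (w p) + Q p (dt w p) := by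
  simp only [dt]
  rw [fderiv_clm_apply hQ hw]
  simp [add_comm]

end per

variable (W : WA) {D : Data} {m : ℕ} (N : Nl D m)

include W

theorem exists_Psi (hFR : FRAME_statement) (a₀ : Fin 4 → WR (m + 1))
    (hs : ContDiff ℝ ∞ (evv a₀)) (τ₀ : ℂ) (hτ : 0 < τ₀.im) :
    ∃ (Ψ : (Fin 4 → WR (m + 1)) ≃L[ℝ] (Fin 4 → WR m))
      (R : (Fin 4 → WR (m + 1)) →L[ℝ] (Fin 4 → WR (m + 1))),
      ∀ v, fderiv ℝ N.F (a₀, τ₀) (v, 0) = Ψ v + incv W m (R v) := by
  obtain ⟨A, A', hA, hA', hAp, hAp', hAA', hA'A, hAJ⟩ := hFR D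
  set f₀ := evv a₀ with hf₀
  have hper : Per f₀ := per_evv W a₀
  have hd : Differentiable ℝ f₀ := hs.differentiable (by simp)
  have hphi : ContDiff ℝ ∞ (phi f₀) := contDiff_phi hs
  let Q : P2 → R4 →L[ℝ] R4 := fun p => A (phi f₀ p)
  let Q' : P2 → R4 →L[ℝ] R4 := fun p => A' (phi f₀ p)
  have hQ : ContDiff ℝ ∞ Q := hA.comp hphi
  have hQ' : ContDiff ℝ ∞ Q' := hA'.comp hphi
  have hQp : Per Q := per_comp_phi hper hAp
  have hQp' : Per Q' := per_comp_phi hper hAp'
  obtain ⟨E1, hE1, hE1'⟩ := exists_mulE W (m + 1) Q Q' hQ hQp hQ' hQp'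
    (fun p u => hAA' _ u) (fun p u => hA'A _ u)
  obtain ⟨E0, hE0, hE0'⟩ := exists_mulE W m Q Q' hQ hQp hQ' hQp'
    (fun p u => hAA' _ u) (fun p u => hA'A _ u)
  obtain ⟨Φ, hΦ⟩ := exists_model4 W m τ₀ hτ
  -- the zeroth order term
  have hdJ : ContDiff ℝ ∞ (fderiv ℝ D.J) := D.J_smooth.fderiv_right (by simp)
  let Rp : P2 → R4 →L[ℝ] R4 := fun p =>
    -(τ₀.im • (fderiv ℝ D.J (phi f₀ p)).flip (ds (phi f₀) p))
      - (Q p).comp (dt Q' p - τ₀.re • ds Q' p - τ₀.im • Jst.comp (ds Q' p))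
      - (Real.pi * τ₀.im) • ContinuousLinearMap.id ℝ R4
  have hRp : ∀ p u, Rp p u = -(τ₀.im • (fderiv ℝ D.J (phi f₀ p) u) (ds (phi f₀) p))
      - Q p (dt Q' p u - τ₀.re • ds Q' p u - τ₀.im • Jst (ds Q' p u))
      - (Real.pi * τ₀.im) • u := fun p u => rfl
  have hRs : ContDiff ℝ ∞ Rp := by
    refine contDiff_clm_apply_iff.2 fun u => ?_
    simp only [hRp]
    have g1 : ContDiff ℝ ∞ fun p => (fderiv ℝ D.J (phi f₀ p) u) (ds (phi f₀) p) :=
      ((hdJ.comp hphi).clm_apply contDiff_const).clm_apply (contDiff_ds hphi)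
    have g2 : ContDiff ℝ ∞ fun p => ds Q' p u := (contDiff_ds hQ').clm_apply contDiff_const
    have g3 : ContDiff ℝ ∞ fun p => dt Q' p u := (contDiff_dt hQ').clm_apply contDiff_const
    have g4 : ContDiff ℝ ∞ fun p => Jst (ds Q' p u) := Jst.contDiff.comp g2
    exact ((g1.const_smul τ₀.im).neg.sub
      (hQ.clm_apply ((g3.sub (g2.const_smul τ₀.re)).sub (g4.const_smul τ₀.im)))).sub
        contDiff_const
  have hRper : Per Rp := by
    intro k l p
    refine ContinuousLinearMap.ext fun u => ?_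
    have h1 := per_comp_phi hper (fderiv_per4 D.J_per) k l p
    have h2 := per_ds_phi hper hd k l p
    have h3 := per_ds hQp' k l p
    have h4 := per_dt hQp' k l p
    have h5 := hQp k l p
    simp only at h1
    rw [hRp, hRp, h1, h2, h3, h4, h5]
  obtain ⟨R, hR⟩ := exists_mulM W (m + 1) Rp hRs hRper
  refine ⟨(E1.symm.trans Φ).trans E0, R, fun v => injv W fun p => ?_⟩
  rw [evv_fderiv_F W, evv_add, evv_incv W, hR]
  have hv : Differentiable ℝ (evv v) := differentiable_evv W v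
  have hξ : evv (E1.symm v) = fun q => Q' q (evv v q) := by
    funext q
    exact hE1' v q
  have k1 : ds (evv (E1.symm v)) p = ds Q' p (evv v p) + Q' p (ds (evv v) p) := by
    rw [hξ]
    exact ds_clm_apply (hQ'.differentiable (by simp) p) (hv p)
  have k2 : dt (evv (E1.symm v)) p = dt Q' p (evv v p) + Q' p (dt (evv v) p) := by
    rw [hξ]
    exact dt_clm_apply (hQ'.differentiable (by simp) p) (hv p)
  have k3 : evv (((E1.symm.trans Φ).trans E0) v) p = Q p (evv (Φ (E1.symm v)) p) := hE0 _ p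
  have q1 : ∀ u, Q p (Q' p u) = u := fun u => hAA' _ u
  have q2 : ∀ u, Q p (Jst (Q' p u)) = D.J (phi f₀ p) u := by
    intro u
    have := hAJ (phi f₀ p) (Q' p u)
    rw [show A (phi f₀ p) (Q' p u) = u from hAA' _ u] at this
    exact this
  rw [k3, hΦ, k1, k2, hE1', hRp, Lop]
  simp only [map_add, map_sub, map_smul, q1, q2, Complex.zero_re, Complex.zero_im, zero_smul,
    smul_add, sub_zero]
  abel

end Vale.Agent.P247.H332
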