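import Vale.Agent.P247.H74.Wien

/-!
# P247, package K3 (local families of tori): the sub-statements
-/

open scoped ContDiff Topology
open Set MeasureTheory Filter Metric Asymptotics

noncomputable section

namespace Vale.Agent.P247.H332

open Vale.Agent.P247.H74

/-- the Cauchy-Riemann operator -/
def Fop (D : Data) (f : P2 → R4) (τ : ℂ) (p : P2) : R4 :=
  dt (phi f) p - τ.re • ds (phi f) p - τ.im • D.J (phi f p) (ds (phi f) p)

/-- its linearisation at `(f, τ)` in the direction `(v, σ)` -/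
def Lop (D : Data) (f : P2 → R4) (τ : ℂ) (v : P2 → R4) (σ : ℂ) (p : P2) : R4 :=
  dt v p - τ.re • ds v p - τ.im • D.J (phi f p) (ds v p)
    - τ.im • (fderiv ℝ D.J (phi f p) (v p)) (ds (phi f) p)
    - σ.re • ds (phi f) p - σ.im • D.J (phi f p) (ds (phi f) p)

/-! ## K3-LIN -/

/-- Stokes: the component of `Fop` in the obstruction space vanishes -/
def LIN1_statement : Prop := ∀ (D : Data) (f : P2 → R4) (τ : ℂ), ContDiff ℝ 2 f → Per f → ∀ j,
  mean (fun p => (D.η j).val (phi f p) (ds (phi f) p) (Fop D f τ p)) = 0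

/-- closedness of `η j (v, φ_s) ds + η j (v, φ_t) dt`, pointwise identity -/
def LIN2_statement : Prop := ∀ (D : Data) (f : P2 → R4) (τ : ℂ) (v : P2 → R4) (σ : ℂ), JT D f τ →
  ContDiff ℝ 2 v → Per v → ∀ j p,
  (D.η j).val (phi f p) (ds (phi f) p) (Lop D f τ v σ p) =
    ds (fun q => (D.η j).val (phi f q) (v q) (dt (phi f) q)) p
      - dt (fun q => (D.η j).val (phi f q) (v q) (ds (phi f) q)) p

/-- the derivative of the flux -/
def LIN3_statement : Prop := ∀ (D : Data) (f v : P2 → R4), ContDiff ℝ ∞ f → Per f →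
  ContDiff ℝ 2 v → Per v →
  mean (fun p => (fderiv ℝ (D.η 0).lam (phi f p) (v p)) (ds (phi f) p)
      + (D.η 0).lam (phi f p) (ds v p) - (D.η 0).κ (e 2) (v p)
      + (1 / 2) * ((D.η 0).κ (v p) (ds f p) + (D.η 0).κ (f p) (ds v p)))
    = mean (fun p => (D.η 0).val (phi f p) (v p) (ds (phi f) p)) ∧
  mean (fun p => (fderiv ℝ (D.η 0).lam (phi f p) (v p)) (dt (phi f) p)
      + (D.η 0).lam (phi f p) (dt v p) - (D.η 0).κ (e 3) (v p)
      + (1 / 2) * ((D.η 0).κ (v p) (dt f p) + (D.η 0).κ (f p) (dt v p)))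
    = mean (fun p => (D.η 0).val (phi f p) (v p) (dt (phi f) p))

/-- the kernel of the linearised problem -/
def LIN4_statement : Prop := ∀ (D : Data) (f : P2 → R4) (τ : ℂ) (v : P2 → R4) (σ : ℂ), JT D f τ →
  Imm f → ContDiff ℝ 2 v → Per v → (∀ p, Lop D f τ v σ p = 0) →
  mean (fun p => v p 2) = 0 → mean (fun p => v p 3) = 0 →
  mean (fun p => (D.η 0).val (phi f p) (v p) (ds (phi f) p)) = 0 →
  mean (fun p => (D.η 0).val (phi f p) (v p) (dt (phi f) p)) = 0 →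
  (∀ p, v p = 0) ∧ σ = 0

/-! ## K3-FRAME -/

/-- the standard complex structure of `ℝ⁴` -/
def Jst : R4 →L[ℝ] R4 := LinearMap.toContinuousLinearMap
  { toFun := fun u => ![-u 1, u 0, -u 3, u 2]
    map_add' := by
      intro u v
      ext i
      fin_cases i <;> simp [add_comm]
    map_smul' := by
      intro c u
      ext i
      fin_cases i <;> simp }

/-- a global complex frame of `(ℝ⁴, J)` -/
def FRAME_statement : Prop := ∀ D : Data, ∃ A A' : R4 → R4 →L[ℝ] R4, ContDiff ℝ ∞ A ∧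
  ContDiff ℝ ∞ A' ∧ (∀ (n : Fin 4 → ℤ) (x : R4), A (fun i => x i + n i) = A x) ∧
  (∀ (n : Fin 4 → ℤ) (x : R4), A' (fun i => x i + n i) = A' x) ∧
  (∀ x u, A x (A' x u) = u) ∧ (∀ x u, A' x (A x u) = u) ∧ ∀ x u, A x (Jst u) = D.J x (A x u)

/-! ## The algebra of the spaces `WR m`, with chosen operators -/

/-- chosen operators on the spaces `WR m` -/
structure WA where
  mul : ∀ m, WR m →L[ℝ] WR m →L[ℝ] WR m
  mul_ev : ∀ m (a b : WR m) p, ev (mul m a b) p = ev a p * ev b p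
  con : ∀ m, ℝ →L[ℝ] WR m
  con_ev : ∀ m (c : ℝ) p, ev (con m c) p = c
  S : ∀ m, WR (m + 1) →L[ℝ] WR m
  T : ∀ m, WR (m + 1) →L[ℝ] WR m
  S_ev : ∀ m (a : WR (m + 1)) p, ev (S m a) p = ds (ev a) p
  T_ev : ∀ m (a : WR (m + 1)) p, ev (T m a) p = dt (ev a) p
  inc : ∀ m, WR (m + 1) →L[ℝ] WR m
  inc_compact : ∀ m, IsCompactOperator (inc m)
  inc_ev : ∀ m (a : WR (m + 1)) p, ev (inc m a) p = ev a p
  M : ∀ m, WR m →L[ℝ] ℝ
  M_ev : ∀ m (a : WR m), M m a = mean (ev a)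
  smooth_mem : ∀ (m : ℕ) (g : P2 → ℝ), ContDiff ℝ ∞ g → Per g → ∃ a : WR m, ev a = g
  inj : ∀ (m : ℕ) (a b : WR m), ev a = ev b → a = b
  ev_smooth : ∀ m : ℕ, ContDiff ℝ m (fun q : WR m × P2 => ev q.1 q.2)
  ev_per : ∀ (m : ℕ) (a : WR m), Per (ev a)
  sup : ∀ m : ℕ, 2 ≤ m → ∀ F : R4 → ℝ, ContDiff ℝ ∞ F →
    (∀ (n : Fin 4 → ℤ) x, F (fun i => x i + n i) = F x) →
    ∃ N : (Fin 4 → WR m) → WR m, ContDiff ℝ ∞ N ∧
      ∀ f p, ev (N f) p = F (lin p + fun i => ev (f i) p)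
  model : ∀ (m : ℕ) (τ : ℂ), 0 < τ.im →
    ∃ Φ : (WR (m + 1) × WR (m + 1)) ≃L[ℝ] (WR m × WR m),
      ∀ a p, evc (Φ a) p = dt (evc a) p - τ * ds (evc a) p + Real.pi * τ.im * evc a p
  norm_le : ∀ m : ℕ, ∃ C : ℝ, ∀ (a : WR m), ContDiff ℝ ∞ (ev a) → ∀ B : ℝ,
    (∀ j ≤ m + 3, ∀ p, ‖iteratedFDeriv ℝ j (ev a) p‖ ≤ B) → ‖a‖ ≤ C * B
  le_norm : ∀ m : ℕ, ∃ C : ℝ, ∀ (a : WR m), ∀ j ≤ m, ∀ p,
    ‖iteratedFDeriv ℝ j (ev a) p‖ ≤ C * ‖a‖

theorem exists_WA (h1 : H1_statement) (h2 : H2_statement) (h3 : H3_statement)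
    (h3c : H3c_statement) (h4 : H4_statement) (h5 : H5_statement) (h6 : H6_statement)
    (h7 : H7_statement) (h8 : H8_statement) (h9 : H9_statement) (h12 : H12_statement)
    (h13 : H13_statement) : Nonempty WA := by
  choose mul hmul using h3
  choose con hcon using h3c
  choose S T hST using h4
  choose inc hinc using h5
  choose M hM using h9
  exact ⟨{
    mul := mul, mul_ev := hmul, con := con, con_ev := hcon, S := S, T := T
    S_ev := fun m a p => (hST m a p).1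
    T_ev := fun m a p => (hST m a p).2
    inc := inc, inc_compact := fun m => (hinc m).1, inc_ev := fun m => (hinc m).2
    M := M, M_ev := hM, smooth_mem := h1, inj := h2
    ev_smooth := fun m => (h6 m).1, ev_per := fun m => (h6 m).2
    sup := h7, model := h8, norm_le := h12, le_norm := h13 }⟩

/-- the vector valued function represented by `a` -/
def evv {m : ℕ} (a : Fin 4 → WR m) (p : P2) : R4 := fun i => ev (a i) p

/-! ## K3-REG: regularity -/

def REG_statement : Prop := WA → FRAME_statement → ∀ (D : Data) (m : ℕ), 2 ≤ m →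
  ∀ (a : Fin 4 → WR (m + 1)) (τ : ℂ), 0 < τ.im → (∀ p, Fop D (evv a) τ p = 0) →
  ContDiff ℝ ∞ (evv a)

/-! ## K3-LOC: the local theorem in one space `WR (m + 1)` -/

def LOC_statement : Prop := WA → FRAME_statement → LIN1_statement → LIN2_statement →
  LIN3_statement → LIN4_statement → ∀ (m : ℕ), 2 ≤ m → ∀ (D : Data) (f₀ : P2 → R4) (τ₀ : ℂ),
  JT D f₀ τ₀ → Cen f₀ → Imm f₀ →
  ∃ a₀ : Fin 4 → WR (m + 1), evv a₀ = f₀ ∧ ∃ ρ > 0, ∃ ε > 0, ∃ S : P2 → (Fin 4 → WR (m + 1)) × ℂ,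
    ContDiffAt ℝ ∞ S (flux D f₀) ∧ ContinuousOn S (ball (flux D f₀) ε) ∧
    S (flux D f₀) = (a₀, τ₀) ∧
    (∀ y ∈ ball (flux D f₀) ε, S y ∈ ball (a₀, τ₀) ρ ∧ 0 < (S y).2.im ∧
      (∀ p, Fop D (evv (S y).1) (S y).2 p = 0) ∧ Cen (evv (S y).1) ∧
      flux D (evv (S y).1) = y) ∧
    ∀ x ∈ ball (a₀, τ₀) ρ, (∀ p, Fop D (evv x.1) x.2 p = 0) → Cen (evv x.1) →
      flux D (evv x.1) ∈ ball (flux D f₀) ε → x = S (flux D (evv x.1))

/-! ## K3-FIN -/

def K3FIN_statement : Prop := WA → FRAME_statement → REG_statement → LIN1_statement →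
  LIN2_statement → LIN3_statement → LIN4_statement → LOC_statement → K3_statement

end Vale.Agent.P247.H332
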