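import Vale.Agent.P247.H332.K3.Ops

/-!
# P247, package K3: superposition operators for operator fields
-/

open scoped ContDiff Topology
open Set MeasureTheory Filter Metric Asymptotics

noncomputable section

namespace Vale.Agent.P247.H332

open Vale.Agent.P247.H74

/-- `ℤ⁴`-periodic -/
def Per4 {E : Type*} (F : R4 → E) : Prop := ∀ (n : Fin 4 → ℤ) (x : R4), F (fun i => x i + n i) = F x

theorem clm_eq_sum {E : Type*} [NormedAddCommGroup E] [NormedSpace ℝ E] (L : R4 →L[ℝ] E) (u : R4) :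
    L u = ∑ j, u j • L (e j) := by
  conv_lhs => rw [show u = ∑ j, u j • e j from by
    ext i
    rw [Finset.sum_apply]
    simp [e, Pi.single_apply]]
  rw [map_sum]
  simp

variable (W : WA)

include W

theorem exists_supF {m : ℕ} (hm : 2 ≤ m) (A : R4 → R4 →L[ℝ] ℝ) (hA : ContDiff ℝ ∞ A)
    (hp : Per4 A) : ∃ N : (Fin 4 → WR m) × (Fin 4 → WR m) → WR m, ContDiff ℝ ∞ N ∧
      ∀ f w p, ev (N (f, w)) p = A (phi (evv f) p) (evv w p) := by
  have h1 : ∀ j : Fin 4, ∃ N : (Fin 4 → WR m) → WR m, ContDiff ℝ ∞ N ∧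
      ∀ f p, ev (N f) p = A (lin p + fun i => ev (f i) p) (e j) := by
    intro j
    refine W.sup m hm (fun x => A x (e j)) (hA.clm_apply contDiff_const) fun n x => ?_
    show A (fun i => x i + n i) (e j) = _
    rw [hp n x]
  choose N hN hNe using h1
  refine ⟨fun q => ∑ j, W.mul m (N j q.1) (q.2 j), ?_, fun f w p => ?_⟩
  · refine ContDiff.sum fun j _ => ?_
    have h2 : ContDiff ℝ ∞ fun q : (Fin 4 → WR m) × (Fin 4 → WR m) => W.mul m (N j q.1) :=
      (W.mul m).contDiff.comp ((hN j).comp contDiff_fst)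
    exact h2.clm_apply ((contDiff_apply ℝ (WR m) j).comp contDiff_snd)
  · rw [ev_sum, clm_eq_sum]
    refine Finset.sum_congr rfl fun j _ => ?_
    rw [W.mul_ev, hNe, smul_eq_mul, mul_comm]
    rfl

theorem exists_supM {m : ℕ} (hm : 2 ≤ m) (A : R4 → R4 →L[ℝ] R4) (hA : ContDiff ℝ ∞ A)
    (hp : Per4 A) : ∃ N : (Fin 4 → WR m) × (Fin 4 → WR m) → (Fin 4 → WR m), ContDiff ℝ ∞ N ∧
      ∀ f w p, evv (N (f, w)) p = A (phi (evv f) p) (evv w p) := by
  have h1 : ∀ i : Fin 4, ∃ N : (Fin 4 → WR m) × (Fin 4 → WR m) → WR m, ContDiff ℝ ∞ N ∧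
      ∀ f w p, ev (N (f, w)) p = ((ContinuousLinearMap.proj i : R4 →L[ℝ] ℝ).comp
        (A (phi (evv f) p))) (evv w p) := by
    intro i
    refine exists_supF W hm (fun x => (ContinuousLinearMap.proj i : R4 →L[ℝ] ℝ).comp (A x))
      (contDiff_const.clm_comp hA) fun n x => ?_
    show ContinuousLinearMap.comp _ (A (fun i => x i + n i)) = _
    rw [hp n x]
  choose N hN hNe using h1
  refine ⟨fun q i => N i q, contDiff_pi.2 hN, fun f w p => ?_⟩
  funext i
  exact hNe i f w p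

theorem exists_supB {m : ℕ} (hm : 2 ≤ m) (B : R4 → R4 →L[ℝ] R4 →L[ℝ] ℝ) (hB : ContDiff ℝ ∞ B)
    (hp : Per4 B) : ∃ N : (Fin 4 → WR m) × (Fin 4 → WR m) × (Fin 4 → WR m) → WR m,
      ContDiff ℝ ∞ N ∧ ∀ f u w p, ev (N (f, u, w)) p = B (phi (evv f) p) (evv u p) (evv w p) := by
  have h1 : ∀ k : Fin 4, ∃ N : (Fin 4 → WR m) × (Fin 4 → WR m) → WR m, ContDiff ℝ ∞ N ∧
      ∀ f w p, ev (N (f, w)) p = B (phi (evv f) p) (e k) (evv w p) := by
    intro k
    refine exists_supF W hm (fun x => B x (e k)) (hB.clm_apply contDiff_const) fun n x => ?_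
    show B (fun i => x i + n i) (e k) = _
    rw [hp n x]
  choose N hN hNe using h1
  refine ⟨fun q => ∑ k, W.mul m (q.2.1 k) (N k (q.1, q.2.2)), ?_, fun f u w p => ?_⟩
  · refine ContDiff.sum fun k _ => ?_
    have h2 : ContDiff ℝ ∞ fun q : (Fin 4 → WR m) × (Fin 4 → WR m) × (Fin 4 → WR m) =>
        W.mul m (q.2.1 k) :=
      (W.mul m).contDiff.comp ((contDiff_apply ℝ (WR m) k).comp (contDiff_fst.comp contDiff_snd))
    refine h2.clm_apply ((hN k).comp ?_)
    exact contDiff_fst.prodMk (contDiff_snd.comp contDiff_snd)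
  · rw [ev_sum, clm_eq_sum (B (phi (evv f) p)) (evv u p), sum_apply]
    refine Finset.sum_congr rfl fun k _ => ?_
    rw [W.mul_ev, hNe]
    rfl

/-- multiplication by a smooth periodic matrix function -/
theorem exists_mulM (m : ℕ) (Q : P2 → R4 →L[ℝ] R4) (hQ : ContDiff ℝ ∞ Q) (hp : Per Q) :
    ∃ N : (Fin 4 → WR m) →L[ℝ] (Fin 4 → WR m), ∀ w p, evv (N w) p = Q p (evv w p) := by
  have h1 : ∀ i j : Fin 4, ∃ a : WR m, ev a = fun p => Q p (e j) i := by
    intro i j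
    refine W.smooth_mem m _ ?_ fun k l p => ?_
    · exact (contDiff_apply ℝ ℝ i).comp (hQ.clm_apply contDiff_const)
    · show Q (p.1 + k, p.2 + l) (e j) i = _
      rw [hp k l p]
  choose a ha using h1
  refine ⟨ContinuousLinearMap.pi fun i => ∑ j, (W.mul m (a i j)).comp
    (ContinuousLinearMap.proj j), fun w p => ?_⟩
  funext i
  show ev ((∑ j, (W.mul m (a i j)).comp (ContinuousLinearMap.proj j) :
    (Fin 4 → WR m) →L[ℝ] WR m) w) p = _
  rw [sum_apply, ev_sum, clm_eq_sum, Finset.sum_apply]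
  refine Finset.sum_congr rfl fun j _ => ?_
  show ev (W.mul m (a i j) (w j)) p = _
  rw [W.mul_ev, ha, Pi.smul_apply, smul_eq_mul, mul_comm]
  rfl

/-- multiplication by an invertible smooth periodic matrix function -/
theorem exists_mulE (m : ℕ) (Q Q' : P2 → R4 →L[ℝ] R4) (hQ : ContDiff ℝ ∞ Q) (hp : Per Q)
    (hQ' : ContDiff ℝ ∞ Q') (hp' : Per Q') (h1 : ∀ p u, Q p (Q' p u) = u)
    (h2 : ∀ p u, Q' p (Q p u) = u) :
    ∃ N : (Fin 4 → WR m) ≃L[ℝ] (Fin 4 → WR m), (∀ w p, evv (N w) p = Q p (evv w p)) ∧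
      ∀ w p, evv (N.symm w) p = Q' p (evv w p) := by
  obtain ⟨N, hN⟩ := exists_mulM W m Q hQ hp
  obtain ⟨N', hN'⟩ := exists_mulM W m Q' hQ' hp'
  refine ⟨ContinuousLinearEquiv.equivOfInverse N N' (fun w => injv W fun p => ?_)
    (fun w => injv W fun p => ?_), hN, hN'⟩
  · rw [hN', hN, h2]
  · rw [hN, hN', h1]

/-- elements of `(WR m)⁴` given by smooth periodic functions -/
theorem exists_memv (m : ℕ) (g : P2 → R4) (hg : ContDiff ℝ ∞ g) (hp : Per g) :
    ∃ a : Fin 4 → WR m, evv a = g := by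
  have h1 : ∀ i : Fin 4, ∃ a : WR m, ev a = fun p => g p i := by
    intro i
    refine W.smooth_mem m _ ((contDiff_apply ℝ ℝ i).comp hg) fun k l p => ?_
    show g (p.1 + k, p.2 + l) i = _
    rw [hp k l p]
  choose a ha using h1
  refine ⟨a, ?_⟩
  funext p i
  exact congrFun (ha i) p

end Vale.Agent.P247.H332
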